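import Vale.Agent.P049.TS.Final.Base

/-!
`AdmOK` (the data on the admissible set needed by the drift lemmas in removal form) for the set
`adm F forb Zp Zm` of all admissible pairs.
-/

set_option linter.unusedSectionVars false

namespace Vale.Agent.P049.TS

open Matrix Finset

variable {ι : Type*} [Fintype ι] [DecidableEq ι]
variable {F : Finset ι} {forb : ι → ι → Prop} {Z Zp Zm : Matrix ι ι ℝ} {Δ t σ v ν b bp bm m : ℝ}

/-- the forbidden pairs: symmetric, with at most `Δ` partners in `F` of every element of `F` -/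
structure ForbOK (F : Finset ι) (forb : ι → ι → Prop) (Δ : ℝ) : Prop where
  Δ0 : 0 ≤ Δ
  symm : ∀ a b, forb a b → forb b a
  card : ∀ [∀ x y, Decidable (forb x y)],
    ∀ a ∈ F, ((F.filter fun b => forb a b).card : ℝ) ≤ Δ

open Classical in
/-- the pointwise majorant of the indicator of the complement of the admissible pairs -/
noncomputable def mj (forb : ι → ι → Prop) (Zp Zm : Matrix ι ι ℝ) (a b : ι) : ℝ :=
  ((if a = b then 1 else 0) + (if forb a b then 1 else 0)) +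
    (8 * |Zp a b| + 8 * (|Zp a a| * |Zp b b|)) + (8 * |Zm a b| + 8 * (|Zm a a| * |Zm b b|))

open Classical in
/-- the same with squares -/
noncomputable def mj2 (forb : ι → ι → Prop) (Zp Zm : Matrix ι ι ℝ) (a b : ι) : ℝ :=
  ((if a = b then 1 else 0) + (if forb a b then 1 else 0)) +
    (64 * Zp a b ^ 2 + 64 * (Zp a a ^ 2 * Zp b b ^ 2)) +
    (64 * Zm a b ^ 2 + 64 * (Zm a a ^ 2 * Zm b b ^ 2))

theorem not_pairOK {a b : ι} (h : ¬ PairOK Z a b) :
    1 ≤ 8 * |Z a b| + 8 * (|Z a a| * |Z b b|) ∧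
      1 ≤ 64 * Z a b ^ 2 + 64 * (Z a a ^ 2 * Z b b ^ 2) := by
  unfold PairOK at h
  rw [not_and_or, not_le, not_le, abs_mul] at h
  have n1 := abs_nonneg (Z a b)
  have n2 : 0 ≤ |Z a a| * |Z b b| := by positivity
  rcases h with h | h
  · refine ⟨by linarith, ?_⟩
    have h2 : (1 / 8 : ℝ) ^ 2 ≤ |Z a b| ^ 2 := pow_le_pow_left₀ (by norm_num) h.le 2
    rw [sq_abs] at h2
    have : 0 ≤ Z a a ^ 2 * Z b b ^ 2 := by positivity
    linarith
  · refine ⟨by linarith, ?_⟩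
    have h2 : (1 / 8 : ℝ) ^ 2 ≤ (|Z a a| * |Z b b|) ^ 2 := pow_le_pow_left₀ (by norm_num) h.le 2
    rw [mul_pow, sq_abs, sq_abs] at h2
    have := sq_nonneg (Z a b)
    linarith

theorem one_le_mj {p : ι × ι} (hp : p ∈ (F ×ˢ F) \ adm F forb Zp Zm) :
    1 ≤ mj forb Zp Zm p.1 p.2 ∧ 1 ≤ mj2 forb Zp Zm p.1 p.2 := by
  classical
  rw [Finset.mem_sdiff, mem_adm] at hp
  have h1 := Finset.mem_product.1 hp.1
  have h2 : p.1 = p.2 ∨ forb p.1 p.2 ∨ ¬ PairOK Zp p.1 p.2 ∨ ¬ PairOK Zm p.1 p.2 := by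
    have := hp.2
    tauto
  unfold mj mj2
  have i1 : (0 : ℝ) ≤ if p.1 = p.2 then 1 else 0 := by split_ifs <;> norm_num
  have i2 : (0 : ℝ) ≤ if forb p.1 p.2 then 1 else 0 := by split_ifs <;> norm_num
  have i3 : 0 ≤ 8 * |Zp p.1 p.2| + 8 * (|Zp p.1 p.1| * |Zp p.2 p.2|) := by positivity
  have i4 : 0 ≤ 8 * |Zm p.1 p.2| + 8 * (|Zm p.1 p.1| * |Zm p.2 p.2|) := by positivity
  have i5 : 0 ≤ 64 * Zp p.1 p.2 ^ 2 + 64 * (Zp p.1 p.1 ^ 2 * Zp p.2 p.2 ^ 2) := by positivity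
  have i6 : 0 ≤ 64 * Zm p.1 p.2 ^ 2 + 64 * (Zm p.1 p.1 ^ 2 * Zm p.2 p.2 ^ 2) := by positivity
  rcases h2 with h | h | h | h
  · rw [if_pos h] at i1 ⊢
    constructor <;> linarith
  · rw [if_pos h] at i2 ⊢
    constructor <;> linarith
  · have := not_pairOK h
    constructor <;> linarith [this.1, this.2]
  · have := not_pairOK h
    constructor <;> linarith [this.1, this.2]

theorem mj2_symm (hf : ForbOK F forb Δ) (hp : Zp.IsSymm) (hm : Zm.IsSymm) (a b : ι) :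
    mj2 forb Zp Zm a b = mj2 forb Zp Zm b a := by
  classical
  unfold mj2
  rw [hp.apply b a, hm.apply b a]
  have e1 : (a = b) = (b = a) := propext ⟨Eq.symm, Eq.symm⟩
  have e2 : forb a b = forb b a := propext ⟨hf.symm a b, hf.symm b a⟩
  simp only [e1, e2]
  ring

/-- the row sums of the squared majorant -/
theorem sum_mj2_le (hf : ForbOK F forb Δ) (hp : Bds F Zp t σ v ν bp) (hm : Bds F Zm t σ v ν bm)
    (sp : Zp.IsSymm) (sm : Zm.IsSymm) {a : ι} (ha : a ∈ F) :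
    ∑ c ∈ F, mj2 forb Zp Zm a c ≤ 1 + Δ + 128 * v + 128 * σ ^ 4 := by
  classical
  have key : ∀ {Z : Matrix ι ι ℝ} {b : ℝ}, Z.IsSymm → Bds F Z t σ v ν b →
      ∑ c ∈ F, (64 * Z a c ^ 2 + 64 * (Z a a ^ 2 * Z c c ^ 2)) ≤ 64 * v + 64 * σ ^ 4 := by
    intro Z b hZ hb
    rw [Finset.sum_add_distrib, ← Finset.mul_sum, ← Finset.mul_sum, ← Finset.mul_sum]
    have h1 : ∑ c ∈ F, Z a c ^ 2 ≤ (Z ^ 2) a a := by
      rw [Mat.sq_diag_eq_sum hZ]
      refine (Finset.sum_le_sum_of_subset_of_nonneg (Finset.subset_univ F)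
        fun _ _ _ => sq_nonneg _).trans (le_of_eq ?_)
      rfl
    have h2 : (Z ^ 2) a a ≤ v := by
      have : (Z ^ 2) a a ^ 2 ≤ v ^ 2 :=
        (Finset.single_le_sum (f := fun c => (Z ^ 2) c c ^ 2) (fun _ _ => sq_nonneg _)
          (Finset.mem_univ a)).trans hb.V
      exact (abs_le_of_sq_le_sq' this hb.v0).2
    have h3 : Z a a ^ 2 ≤ σ ^ 2 :=
      (Finset.single_le_sum (f := fun c => Z c c ^ 2) (fun _ _ => sq_nonneg _)
          (Finset.mem_univ a)).trans hb.S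
    have h4 : Z a a ^ 2 * ∑ c ∈ F, Z c c ^ 2 ≤ σ ^ 2 * σ ^ 2 :=
      mul_le_mul h3 ((Finset.sum_le_sum_of_subset_of_nonneg (Finset.subset_univ F)
        fun _ _ _ => sq_nonneg _).trans hb.S) (Finset.sum_nonneg fun _ _ => sq_nonneg _)
        (sq_nonneg _)
    nlinarith
  have k1 := key sp hp
  have k2 := key sm hm
  have e1 : ∑ c ∈ F, (if a = c then (1 : ℝ) else 0) ≤ 1 := by
    rw [Finset.sum_ite_eq, if_pos ha]
  have e2 : ∑ c ∈ F, (if forb a c then (1 : ℝ) else 0) ≤ Δ := by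
    rw [Finset.sum_ite, Finset.sum_const_zero, add_zero, Finset.sum_const, nsmul_eq_mul, mul_one]
    exact hf.card a ha
  unfold mj2
  rw [Finset.sum_add_distrib, Finset.sum_add_distrib, Finset.sum_add_distrib]
  linarith

theorem rows_adm_le (hf : ForbOK F forb Δ) (hp : Bds F Zp t σ v ν bp) (hm : Bds F Zm t σ v ν bm)
    (sp : Zp.IsSymm) (sm : Zm.IsSymm) {a : ι} (ha : a ∈ F) :
    ((((((F ×ˢ F) \ adm F forb Zp Zm)).filter fun p => p.1 = a).card : ℕ) : ℝ) ≤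
      1 + Δ + 128 * v + 128 * σ ^ 4 := by
  classical
  refine le_trans ?_ (sum_mj2_le hf hp hm sp sm ha)
  rw [Finset.card_eq_sum_ones, Nat.cast_sum]
  have h0 : ∀ c, 0 ≤ mj2 forb Zp Zm a c := by
    intro c
    unfold mj2
    have i1 : (0 : ℝ) ≤ if a = c then 1 else 0 := by split_ifs <;> norm_num
    have i2 : (0 : ℝ) ≤ if forb a c then 1 else 0 := by split_ifs <;> norm_num
    positivity
  have h1 : ∑ c ∈ F, mj2 forb Zp Zm a c = ∑ p ∈ F.image (fun c => (a, c)), mj2 forb Zp Zm p.1 p.2 := by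
    rw [Finset.sum_image (fun x _ y _ h => (Prod.ext_iff.1 h).2)]
  rw [h1]
  refine (Finset.sum_le_sum (g := fun p : ι × ι => mj2 forb Zp Zm p.1 p.2) fun p hp => ?_).trans
    (Finset.sum_le_sum_of_subset_of_nonneg ?_ fun p hp _ => ?_)
  · have := (one_le_mj (Finset.mem_filter.1 hp).1).2
    push_cast
    exact this
  · intro p hp
    have h2 := Finset.mem_filter.1 hp
    have h3 := Finset.mem_product.1 (Finset.mem_sdiff.1 h2.1).1
    exact Finset.mem_image.2 ⟨p.2, h3.2, Prod.ext h2.2.symm rfl⟩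
  · obtain ⟨c, hc, rfl⟩ := Finset.mem_image.1 hp
    exact h0 c

theorem cols_adm_le (hf : ForbOK F forb Δ) (hp : Bds F Zp t σ v ν bp) (hm : Bds F Zm t σ v ν bm)
    (sp : Zp.IsSymm) (sm : Zm.IsSymm) {a : ι} (ha : a ∈ F) :
    ((((((F ×ˢ F) \ adm F forb Zp Zm)).filter fun p => p.2 = a).card : ℕ) : ℝ) ≤
      1 + Δ + 128 * v + 128 * σ ^ 4 := by
  classical
  refine le_trans ?_ (sum_mj2_le hf hp hm sp sm ha)
  rw [Finset.card_eq_sum_ones, Nat.cast_sum]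
  have h0 : ∀ c, 0 ≤ mj2 forb Zp Zm a c := by
    intro c
    unfold mj2
    have i1 : (0 : ℝ) ≤ if a = c then 1 else 0 := by split_ifs <;> norm_num
    have i2 : (0 : ℝ) ≤ if forb a c then 1 else 0 := by split_ifs <;> norm_num
    positivity
  have h1 : ∑ c ∈ F, mj2 forb Zp Zm a c = ∑ p ∈ F.image (fun c => (c, a)), mj2 forb Zp Zm p.1 p.2 := by
    rw [Finset.sum_image (fun x _ y _ h => (Prod.ext_iff.1 h).1)]
    exact Finset.sum_congr rfl fun c _ => mj2_symm hf sp sm a c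
  rw [h1]
  refine (Finset.sum_le_sum (g := fun p : ι × ι => mj2 forb Zp Zm p.1 p.2) fun p hp => ?_).trans
    (Finset.sum_le_sum_of_subset_of_nonneg ?_ fun p hp _ => ?_)
  · have := (one_le_mj (Finset.mem_filter.1 hp).1).2
    push_cast
    exact this
  · intro p hp
    have h2 := Finset.mem_filter.1 hp
    have h3 := Finset.mem_product.1 (Finset.mem_sdiff.1 h2.1).1
    exact Finset.mem_image.2 ⟨p.1, h3.1, Prod.ext rfl h2.2.symm⟩
  · obtain ⟨c, hc, rfl⟩ := Finset.mem_image.1 hp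
    show 0 ≤ mj2 forb Zp Zm c a
    rw [mj2_symm hf sp sm c a]
    exact h0 c

/-- the complement of the admissible pairs has small norm as a nonnegative form -/
theorem quad_adm_le (hf : ForbOK F forb Δ) (hp : Bds F Zp t σ v ν bp) (hm : Bds F Zm t σ v ν bm)
    (sp : Zp.IsSymm) (sm : Zm.IsSymm) (u w : ι → ℝ) (x y : ℝ) (hx0 : 0 ≤ x) (hy0 : 0 ≤ y)
    (hx : ∑ a, u a ^ 2 ≤ x ^ 2) (hy : ∑ a, w a ^ 2 ≤ y ^ 2) :
    ∑ p ∈ (F ×ˢ F) \ adm F forb Zp Zm, |u p.1| * |w p.2| ≤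
      (1 + Δ + 16 * t + 16 * σ ^ 2) * (x * y) := by
  classical
  have hu : ∑ a ∈ F, u a ^ 2 ≤ x ^ 2 :=
    (Finset.sum_le_sum_of_subset_of_nonneg (Finset.subset_univ F) fun _ _ _ => sq_nonneg _).trans hx
  have hw : ∑ a ∈ F, w a ^ 2 ≤ y ^ 2 :=
    (Finset.sum_le_sum_of_subset_of_nonneg (Finset.subset_univ F) fun _ _ _ => sq_nonneg _).trans hy
  have key : ∀ {Z : Matrix ι ι ℝ} {b : ℝ}, Z.IsSymm → Bds F Z t σ v ν b →
      ∑ p ∈ F ×ˢ F, (8 * |Z p.1 p.2| + 8 * (|Z p.1 p.1| * |Z p.2 p.2|)) * (|u p.1| * |w p.2|) ≤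
        (8 * t + 8 * σ ^ 2) * (x * y) := by
    intro Z b hZ hb
    have a1 : ∑ p ∈ F ×ˢ F, |Z p.1 p.2| * |u p.1 * w p.2| ≤ t * (x * y) := by
      have hZa : ∑ p ∈ F ×ˢ F, Z p.1 p.2 ^ 2 ≤ t ^ 2 :=
        arr_mat F Z (by rw [Mat.frob_eq_trace_sq hZ]; exact hb.T)
      exact sumA_arr_le (Finset.Subset.refl _) (fun p => Z p.1 p.2) (fun p => u p.1 * w p.2) hb.t0
        (by positivity) hZa (arr_mul F u w hu hw)
    have a2 : ∑ p ∈ F ×ˢ F, (|Z p.1 p.1| * |u p.1|) * (|Z p.2 p.2| * |w p.2|) ≤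
        (σ * x) * (σ * y) := by
      have hS : ∑ a ∈ F, Z a a ^ 2 ≤ σ ^ 2 :=
        (Finset.sum_le_sum_of_subset_of_nonneg (Finset.subset_univ F)
          fun _ _ _ => sq_nonneg _).trans hb.S
      have h1 := sumF_mul_le F (fun a => Z a a) u hb.σ0 hx0 hS hu
      have h2 := sumF_mul_le F (fun a => Z a a) w hb.σ0 hy0 hS hw
      exact sumA_mul_le (F := F) (Finset.Subset.refl _) (f := fun a => |Z a a| * |u a|)
        (g := fun a => |Z a a| * |w a|) (fun a => by positivity) (fun a => by positivity) h1 h2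
    have e2 : (σ * x) * (σ * y) = σ ^ 2 * (x * y) := by ring
    rw [e2] at a2
    have e3 : ∑ p ∈ F ×ˢ F, (8 * |Z p.1 p.2| + 8 * (|Z p.1 p.1| * |Z p.2 p.2|)) *
        (|u p.1| * |w p.2|) = 8 * ∑ p ∈ F ×ˢ F, |Z p.1 p.2| * |u p.1 * w p.2| +
        8 * ∑ p ∈ F ×ˢ F, (|Z p.1 p.1| * |u p.1|) * (|Z p.2 p.2| * |w p.2|) := by
      rw [Finset.mul_sum, Finset.mul_sum, ← Finset.sum_add_distrib]
      refine Finset.sum_congr rfl fun p _ => ?_
      rw [abs_mul]; ring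
    rw [e3]
    linarith
  have k1 := key sp hp
  have k2 := key sm hm
  have e1 : ∑ p ∈ F ×ˢ F, (if p.1 = p.2 then (1 : ℝ) else 0) * (|u p.1| * |w p.2|) ≤
      x * y := by
    rw [Finset.sum_product]
    refine le_trans (le_of_eq ?_) (sumF_mul_le F u w hx0 hy0 hu hw)
    refine Finset.sum_congr rfl fun a ha => ?_
    rw [Finset.sum_eq_single a]
    · rw [if_pos rfl, one_mul]
    · intro c _ hc
      rw [if_neg (Ne.symm hc), zero_mul]
    · intro h; exact absurd ha h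
  have e2 : ∑ p ∈ F ×ˢ F, (if forb p.1 p.2 then (1 : ℝ) else 0) * (|u p.1| * |w p.2|) ≤
      Δ * (x * y) := by
    have hrow : ∀ a ∈ F, ∑ c ∈ F, (if forb a c then (1 : ℝ) else 0) ≤ Δ := by
      intro a ha
      rw [Finset.sum_ite, Finset.sum_const_zero, add_zero, Finset.sum_const, nsmul_eq_mul, mul_one]
      exact hf.card a ha
    have hone : ∀ (q : Prop) [Decidable q], (if q then (1 : ℝ) else 0) ^ 2 = if q then 1 else 0 := by
      intro q _; split_ifs <;> norm_num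
    have h2 : ∑ p ∈ F ×ˢ F, ((if forb p.1 p.2 then (1 : ℝ) else 0) * u p.1) ^ 2 ≤
        (√Δ * x) ^ 2 := by
      rw [Finset.sum_product, mul_pow, Real.sq_sqrt hf.Δ0]
      refine le_trans (Finset.sum_le_sum fun a ha => ?_ : _ ≤ ∑ a ∈ F, Δ * u a ^ 2) ?_
      · show ∑ c ∈ F, ((if forb a c then (1 : ℝ) else 0) * u a) ^ 2 ≤ Δ * u a ^ 2
        simp only [mul_pow, hone]
        rw [← Finset.sum_mul]
        exact mul_le_mul_of_nonneg_right (hrow a ha) (sq_nonneg _)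
      · rw [← Finset.mul_sum]; exact mul_le_mul_of_nonneg_left hu hf.Δ0
    have h3 : ∑ p ∈ F ×ˢ F, ((if forb p.1 p.2 then (1 : ℝ) else 0) * w p.2) ^ 2 ≤
        (√Δ * y) ^ 2 := by
      rw [Finset.sum_product_right, mul_pow, Real.sq_sqrt hf.Δ0]
      refine le_trans (Finset.sum_le_sum fun a ha => ?_ : _ ≤ ∑ a ∈ F, Δ * w a ^ 2) ?_
      · show ∑ c ∈ F, ((if forb c a then (1 : ℝ) else 0) * w a) ^ 2 ≤ Δ * w a ^ 2
        simp only [mul_pow, hone]
        rw [← Finset.sum_mul]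
        have e2 : ∀ c, forb c a = forb a c := fun c => propext ⟨hf.symm c a, hf.symm a c⟩
        simp only [e2]
        exact mul_le_mul_of_nonneg_right (hrow a ha) (sq_nonneg _)
      · rw [← Finset.mul_sum]; exact mul_le_mul_of_nonneg_left hw hf.Δ0
    have h4 := sumA_arr_le (F := F) (Finset.Subset.refl (F ×ˢ F))
      (fun p => (if forb p.1 p.2 then (1 : ℝ) else 0) * u p.1)
      (fun p => (if forb p.1 p.2 then (1 : ℝ) else 0) * w p.2)
      (by positivity) (by positivity) h2 h3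
    have e4 : (√Δ * x) * (√Δ * y) = Δ * (x * y) := by
      rw [mul_mul_mul_comm, Real.mul_self_sqrt hf.Δ0]
    rw [e4] at h4
    refine le_trans (le_of_eq (Finset.sum_congr rfl fun p _ => ?_)) h4
    rw [abs_mul, abs_mul]
    split_ifs <;> simp
  have h0 : ∀ p : ι × ι, 0 ≤ mj forb Zp Zm p.1 p.2 := by
    intro p
    unfold mj
    have i1 : (0 : ℝ) ≤ if p.1 = p.2 then 1 else 0 := by split_ifs <;> norm_num
    have i2 : (0 : ℝ) ≤ if forb p.1 p.2 then 1 else 0 := by split_ifs <;> norm_num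
    positivity
  calc ∑ p ∈ (F ×ˢ F) \ adm F forb Zp Zm, |u p.1| * |w p.2|
      ≤ ∑ p ∈ (F ×ˢ F) \ adm F forb Zp Zm, mj forb Zp Zm p.1 p.2 * (|u p.1| * |w p.2|) := by
        refine Finset.sum_le_sum fun p hp => ?_
        have := (one_le_mj hp).1
        have q : 0 ≤ |u p.1| * |w p.2| := by positivity
        nlinarith
    _ ≤ ∑ p ∈ F ×ˢ F, mj forb Zp Zm p.1 p.2 * (|u p.1| * |w p.2|) :=
        Finset.sum_le_sum_of_subset_of_nonneg Finset.sdiff_subset fun p _ _ =>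
          mul_nonneg (h0 p) (by positivity)
    _ = (∑ p ∈ F ×ˢ F, (if p.1 = p.2 then (1 : ℝ) else 0) * (|u p.1| * |w p.2|) +
        ∑ p ∈ F ×ˢ F, (if forb p.1 p.2 then (1 : ℝ) else 0) * (|u p.1| * |w p.2|)) +
        ∑ p ∈ F ×ˢ F, (8 * |Zp p.1 p.2| + 8 * (|Zp p.1 p.1| * |Zp p.2 p.2|)) *
          (|u p.1| * |w p.2|) +
        ∑ p ∈ F ×ˢ F, (8 * |Zm p.1 p.2| + 8 * (|Zm p.1 p.1| * |Zm p.2 p.2|)) *
          (|u p.1| * |w p.2|) := by
        rw [← Finset.sum_add_distrib, ← Finset.sum_add_distrib, ← Finset.sum_add_distrib]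
        refine Finset.sum_congr rfl fun p _ => ?_
        unfold mj
        ring
    _ ≤ (1 + Δ + 16 * t + 16 * σ ^ 2) * (x * y) := by linarith

theorem card_adm_le (hf : ForbOK F forb Δ) (hp : Bds F Zp t σ v ν bp) (hm : Bds F Zm t σ v ν bm)
    (sp : Zp.IsSymm) (sm : Zm.IsSymm) :
    (((((F ×ˢ F) \ adm F forb Zp Zm)).card : ℕ) : ℝ) ≤
      (1 + Δ) * ν ^ 2 + 128 * t ^ 2 + 128 * σ ^ 4 := by
  classical
  have h := card_compl_adm_le (Zp := Zp) (Zm := Zm) (F := F) (forb := forb) (Δ := Δ)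
    (fun a ha => hf.card a ha)
  rw [hp.N] at h
  have f1 : frob Zp ≤ t ^ 2 := by rw [frob_eq_trace sp]; exact hp.T
  have f2 : frob Zm ≤ t ^ 2 := by rw [frob_eq_trace sm]; exact hm.T
  have s1 : Sd F Zp ≤ σ ^ 2 := (Finset.sum_le_sum_of_subset_of_nonneg (Finset.subset_univ F)
    fun _ _ _ => sq_nonneg _).trans hp.S
  have s2 : Sd F Zm ≤ σ ^ 2 := (Finset.sum_le_sum_of_subset_of_nonneg (Finset.subset_univ F)
    fun _ _ _ => sq_nonneg _).trans hm.S
  have s3 : Sd F Zp ^ 2 ≤ σ ^ 4 := by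
    calc Sd F Zp ^ 2 ≤ (σ ^ 2) ^ 2 := pow_le_pow_left₀ (Sd_nonneg F Zp) s1 2
      _ = σ ^ 4 := by ring
  have s4 : Sd F Zm ^ 2 ≤ σ ^ 4 := by
    calc Sd F Zm ^ 2 ≤ (σ ^ 2) ^ 2 := pow_le_pow_left₀ (Sd_nonneg F Zm) s2 2
      _ = σ ^ 4 := by ring
  linarith

/-- the admissible set satisfies `AdmOK` for every matrix `Z` for which the admissible pairs are
good (in particular for `Zp` and `Zm`) -/
theorem admOK_adm (hf : ForbOK F forb Δ) (hp : Bds F Zp t σ v ν bp) (hm : Bds F Zm t σ v ν bm)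
    (sp : Zp.IsSymm) (sm : Zm.IsSymm) (hZ : Z = Zp ∨ Z = Zm) (hm0 : 0 ≤ m)
    (hm2 : (1 + Δ) * ν ^ 2 + 128 * t ^ 2 + 128 * σ ^ 4 ≤ m ^ 2) :
    AdmOK F Z (adm F forb Zp Zm) (1 + Δ + 128 * v + 128 * σ ^ 4) m
      (1 + Δ + 16 * t + 16 * σ ^ 2) where
  sub := adm_subset _ _ _ _
  ok := by
    intro p hpp
    have h := mem_adm.1 hpp
    rcases hZ with rfl | rfl
    · exact ⟨h.2.1, h.2.2.2.1⟩
    · exact ⟨h.2.1, h.2.2.2.2⟩
  G0 := by have := hf.Δ0; have := hp.v0; positivity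
  m0 := hm0
  L0 := by have := hf.Δ0; have := hp.t0; positivity
  rows := fun a ha => rows_adm_le hf hp hm sp sm ha
  cols := fun a ha => cols_adm_le hf hp hm sp sm ha
  card := (card_adm_le hf hp hm sp sm).trans hm2
  quad := quad_adm_le hf hp hm sp sm

end Vale.Agent.P049.TS
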