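import Vale.Agent.P049.TS.Final.V2b

/-!
The drift of `Σ ((Z²)_cc)²` with the full rate `-4 N V₂`.

With `W_c = w_c + θ_c` and `κ_c = ca² + cb²` one has `w'_c = W_c - κ_c ≥ 0`, hence
`w'_c² ≤ w'_c W_c = W_c² - κ_c W_c`.
-/

set_option linter.unusedSectionVars false

namespace Vale.Agent.P049.TS

open Matrix Finset

variable {ι : Type*} [Fintype ι] [DecidableEq ι]
variable {F : Finset ι} {Z : Matrix ι ι ℝ} {A : Finset (ι × ι)} {G m L t σ v ν b μ lm li : ℝ}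

/-- removed index -/
theorem V4_rem_real {ai r p q wa wb s e : ℝ} (h0 : 0 ≤ ai) (h1 : ai ≤ 8 / 5)
    (h4 : |ai * (1 - r)| ≤ 9 / 5) (he : e = |r| + |p * q|) (he4 : e ≤ 1 / 4) (hwa : 0 ≤ wa)
    (hwb : 0 ≤ wb) (hs : s ^ 2 ≤ wa * wb) :
    -((wa + tht (ai * (q * p + (1 - r) * r)) (ai * ((1 - r) * p + p * r)) wa wb s wa s) ^ 2 -
      ((ai * (q * p + (1 - r) * r)) ^ 2 + (ai * ((1 - r) * p + p * r)) ^ 2) *
      (wa + tht (ai * (q * p + (1 - r) * r)) (ai * ((1 - r) * p + p * r)) wa wb s wa s)) ≤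
      -wa ^ 2 + 8 * (e * wa ^ 2) + 32 / 5 * (|s| * (|p| * wa)) +
        (e * wa + 3 * (p ^ 2 * wa) + 1 / 2 * e ^ 2 + 5 * (p ^ 2) ^ 2) := by
  set c1 := ai * (q * p + (1 - r) * r) with hc1
  set c2 := ai * ((1 - r) * p + p * r) with hc2
  have e0 : 0 ≤ e := by rw [he]; positivity
  have e1 : |c1| ≤ 2 * e := by
    have : c1 = ai * (p * q) + ai * (1 - r) * r := by rw [hc1]; ring
    rw [this, he]
    refine (abs_add_le _ _).trans ?_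
    rw [abs_mul ai (p * q), abs_mul _ r, abs_of_nonneg h0]
    have g1 := mul_le_mul_of_nonneg_right h1 (abs_nonneg (p * q))
    have g2 := mul_le_mul_of_nonneg_right h4 (abs_nonneg r)
    linarith [abs_nonneg (p * q), abs_nonneg r]
  have e2 : |c2| ≤ 8 / 5 * |p| := by
    have : c2 = ai * p := by rw [hc2]; ring
    rw [this, abs_mul, abs_of_nonneg h0]
    exact mul_le_mul_of_nonneg_right h1 (abs_nonneg p)
  have e3 := (abs_le.1 (abs_two_mul_le_of_sq_le (x := c1) (y := c2) hwa hwb hs)).1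
  have e4 : -(c1 * wa) ≤ 2 * e * wa := by
    have : |c1 * wa| ≤ 2 * e * wa := by
      rw [abs_mul, abs_of_nonneg hwa]; exact mul_le_mul_of_nonneg_right e1 hwa
    exact (neg_le_abs _).trans this
  have e5 : -(c2 * s) ≤ 8 / 5 * |p| * |s| := by
    have : |c2 * s| ≤ 8 / 5 * |p| * |s| := by
      rw [abs_mul]; exact mul_le_mul_of_nonneg_right e2 (abs_nonneg s)
    exact (neg_le_abs _).trans this
  have e6 : -tht c1 c2 wa wb s wa s ≤ 4 * e * wa + 16 / 5 * |p| * |s| := by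
    unfold tht
    linarith
  have e7 : wa * -tht c1 c2 wa wb s wa s ≤ wa * (4 * e * wa + 16 / 5 * |p| * |s|) :=
    mul_le_mul_of_nonneg_left e6 hwa
  set θ := tht c1 c2 wa wb s wa s with hθ
  -- the size of `κ`
  have k1 : c1 ^ 2 ≤ e := by
    have g := pow_le_pow_left₀ (abs_nonneg c1) e1 2
    rw [sq_abs] at g
    have g2 : e * e ≤ 1 / 4 * e := mul_le_mul_of_nonneg_right he4 e0
    linarith [show (2 * e) ^ 2 = 4 * (e * e) by ring]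
  have k2 : c2 ^ 2 ≤ 3 * p ^ 2 := by
    have g := pow_le_pow_left₀ (abs_nonneg c2) e2 2
    rw [sq_abs] at g
    linarith [show (8 / 5 * |p|) ^ 2 = 64 / 25 * |p| ^ 2 by ring, sq_abs p, sq_nonneg p]
  set κ := c1 ^ 2 + c2 ^ 2 with hκ
  have k3 : κ ≤ e + 3 * p ^ 2 := by linarith
  have k0 : 0 ≤ κ := by rw [hκ]; positivity
  have k4 : κ * wa ≤ (e + 3 * p ^ 2) * wa := mul_le_mul_of_nonneg_right k3 hwa
  have k5 : κ ^ 2 ≤ (e + 3 * p ^ 2) ^ 2 := pow_le_pow_left₀ k0 k3 2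
  linarith [sq_nonneg (θ - κ / 2), sq_nonneg (e - 3 * p ^ 2),
    show -((wa + θ) ^ 2 - κ * (wa + θ)) = -wa ^ 2 + 2 * (wa * -θ) + κ * wa + κ ^ 2 / 4 -
      (θ - κ / 2) ^ 2 by ring,
    show (e + 3 * p ^ 2) ^ 2 + (e - 3 * p ^ 2) ^ 2 = 2 * e ^ 2 + 18 * (p ^ 2) ^ 2 by ring,
    sq_nonneg (p ^ 2)]

/-- the additional error of a surviving index, one half -/
noncomputable def H4r (lm li wc p' x y A e : ℝ) : ℝ :=
  2 * (wc * (|y| * (8 / 5 * (|p'| * |x|) + 2 * (e * |y|)))) +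
    2 * (lm * (72 * ((p' ^ 2) ^ 2 * (x ^ 2) ^ 2) + 98 * (y ^ 2) ^ 2)) +
    2 * (li * ((6 * (p' ^ 2 * x ^ 2) + 7 * y ^ 2) * A ^ 2))

/-- surviving index -/
theorem V4_sum_real {c1 c2 p q x y w wa wb s A B e lm li : ℝ} (hw : 0 ≤ w) (hwa : 0 ≤ wa)
    (hwb : 0 ≤ wb) (hs : s ^ 2 ≤ wa * wb) (hlm : 0 < lm) (hli : lm * li = 1)
    (h1 : |c1 - y| ≤ 8 / 5 * (|q| * |x|) + 2 * (e * |y|))
    (h1' : c1 ^ 2 ≤ 6 * (q ^ 2 * x ^ 2) + 7 * y ^ 2)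
    (h2 : |c2 - x| ≤ 8 / 5 * (|p| * |y|) + 2 * (e * |x|))
    (h2' : c2 ^ 2 ≤ 6 * (p ^ 2 * y ^ 2) + 7 * x ^ 2) :
    (w + tht c1 c2 wa wb s A B) ^ 2 - (c1 ^ 2 + c2 ^ 2) * (w + tht c1 c2 wa wb s A B) ≤
      w ^ 2 + 4 * (w * (A * y + x * B)) +
      (Hr w q x y A wa e + Hr w p y x B wb e) - w * (x ^ 2 + y ^ 2) +
      (H4r lm li w q x y A e + H4r lm li w p y x B e) := by
  have hmain := V2_sum_real (A := A) (B := B) hw hwa hwb hs h1 h1' h2 h2'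
  have hli0 : 0 ≤ li := by
    by_contra hh
    push Not at hh
    have := mul_neg_of_pos_of_neg hlm hh
    linarith
  set ρ := c1 ^ 2 * wa + 2 * (c1 * c2) * s + c2 ^ 2 * wb with hρ
  have hρ' := abs_le.1 (abs_two_mul_le_of_sq_le (x := c1) (y := c2) hwa hwb hs)
  have r0 : 0 ≤ ρ := by rw [hρ]; linarith [hρ'.1]
  set κ := c1 ^ 2 + c2 ^ 2 with hκ
  have k0 : 0 ≤ κ := by rw [hκ]; positivity
  set z := c1 * A + c2 * B with hz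
  -- `2 κ |z| ≤ lm κ² + li z²`
  have a1 : -(2 * (κ * z)) ≤ lm * κ ^ 2 + li * z ^ 2 := by
    have g : 0 ≤ li * (lm * κ + z) ^ 2 := mul_nonneg hli0 (sq_nonneg _)
    have g2 : li * (lm * κ + z) ^ 2 = (lm * li) * (lm * κ ^ 2) + 2 * ((lm * li) * (κ * z)) +
      li * z ^ 2 := by ring
    rw [g2, hli] at g
    linarith
  have f4 : ∀ {c a x y : ℝ}, c ^ 2 ≤ 6 * (a ^ 2 * x ^ 2) + 7 * y ^ 2 →
      (c ^ 2) ^ 2 ≤ 72 * ((a ^ 2) ^ 2 * (x ^ 2) ^ 2) + 98 * (y ^ 2) ^ 2 := by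
    intro c a x y h
    have g1 := pow_le_pow_left₀ (sq_nonneg c) h 2
    linarith [sq_nonneg (6 * (a ^ 2 * x ^ 2) - 7 * y ^ 2),
      show (6 * (a ^ 2 * x ^ 2) + 7 * y ^ 2) ^ 2 + (6 * (a ^ 2 * x ^ 2) - 7 * y ^ 2) ^ 2 =
        72 * ((a ^ 2) ^ 2 * (x ^ 2) ^ 2) + 98 * (y ^ 2) ^ 2 by ring]
  have u1 := f4 h1'
  have u2 := f4 h2'
  have a2 : κ ^ 2 ≤ 2 * (72 * ((q ^ 2) ^ 2 * (x ^ 2) ^ 2) + 98 * (y ^ 2) ^ 2) +
      2 * (72 * ((p ^ 2) ^ 2 * (y ^ 2) ^ 2) + 98 * (x ^ 2) ^ 2) := by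
    linarith [sq_nonneg (c1 ^ 2 - c2 ^ 2),
      show κ ^ 2 + (c1 ^ 2 - c2 ^ 2) ^ 2 = 2 * (c1 ^ 2) ^ 2 + 2 * (c2 ^ 2) ^ 2 by rw [hκ]; ring]
  have q1 : c1 ^ 2 * A ^ 2 ≤ (6 * (q ^ 2 * x ^ 2) + 7 * y ^ 2) * A ^ 2 :=
    mul_le_mul_of_nonneg_right h1' (sq_nonneg A)
  have q2 : c2 ^ 2 * B ^ 2 ≤ (6 * (p ^ 2 * y ^ 2) + 7 * x ^ 2) * B ^ 2 :=
    mul_le_mul_of_nonneg_right h2' (sq_nonneg B)
  have a3 : z ^ 2 ≤ 2 * ((6 * (q ^ 2 * x ^ 2) + 7 * y ^ 2) * A ^ 2) +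
      2 * ((6 * (p ^ 2 * y ^ 2) + 7 * x ^ 2) * B ^ 2) := by
    linarith [sq_nonneg (c1 * A - c2 * B),
      show z ^ 2 + (c1 * A - c2 * B) ^ 2 = 2 * (c1 ^ 2 * A ^ 2) + 2 * (c2 ^ 2 * B ^ 2) by
        rw [hz]; ring]
  have a4 := mul_le_mul_of_nonneg_left a2 hlm.le
  have a5 := mul_le_mul_of_nonneg_left a3 hli0
  -- `-κ w`
  have low : ∀ {c y d : ℝ}, |c - y| ≤ d → y ^ 2 - 2 * (|y| * d) ≤ c ^ 2 := by
    intro c y d h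
    have g1 : -(y * (c - y)) ≤ |y| * d := by
      refine (neg_le_abs _).trans ?_
      rw [abs_mul]; exact mul_le_mul_of_nonneg_left h (abs_nonneg y)
    linarith [sq_nonneg (c - y), show c ^ 2 = y ^ 2 + 2 * (y * (c - y)) + (c - y) ^ 2 by ring]
  have l1 := low h1
  have l2 := low h2
  have a6 : -(κ * w) ≤ -(w * (x ^ 2 + y ^ 2)) +
      2 * (w * (|y| * (8 / 5 * (|q| * |x|) + 2 * (e * |y|)))) +
      2 * (w * (|x| * (8 / 5 * (|p| * |y|) + 2 * (e * |x|)))) := by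
    have g := mul_le_mul_of_nonneg_left (add_le_add l1 l2) hw
    linarith [show w * (y ^ 2 - 2 * (|y| * (8 / 5 * (|q| * |x|) + 2 * (e * |y|))) +
      (x ^ 2 - 2 * (|x| * (8 / 5 * (|p| * |y|) + 2 * (e * |x|))))) = w * (x ^ 2 + y ^ 2) -
      2 * (w * (|y| * (8 / 5 * (|q| * |x|) + 2 * (e * |y|)))) -
      2 * (w * (|x| * (8 / 5 * (|p| * |y|) + 2 * (e * |x|)))) by ring,
      show w * (c1 ^ 2 + c2 ^ 2) = κ * w by rw [hκ]; ring]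
  have a7 : -(κ * (w + tht c1 c2 wa wb s A B)) ≤ -(κ * w) + -(2 * (κ * z)) := by
    have g := mul_nonneg k0 r0
    have e1 : tht c1 c2 wa wb s A B = 2 * z + ρ := rfl
    rw [e1]
    linarith [show κ * (w + (2 * z + ρ)) = κ * w + 2 * (κ * z) + κ * ρ by ring]
  unfold H4r
  linarith

theorem PairOK.eA_le {a c : ι} (h : PairOK Z a c) : eA Z a c ≤ 1 / 4 := by
  unfold eA; linarith [h.1, h.2]

theorem sum_w_sq_upd4 {a b : ι} (hab : a ≠ b) (hZ : Z.IsSymm) (h : al Z a b ≠ 0) :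
    ∑ c, (upd Z a b ^ 2) c c ^ 2 ≤
      ∑ c, (((Z ^ 2) c c + th Z a b c) ^ 2 -
        (ca Z a b c ^ 2 + cb Z a b c ^ 2) * ((Z ^ 2) c c + th Z a b c)) -
      (((Z ^ 2) a a + th Z a b a) ^ 2 -
        (ca Z a b a ^ 2 + cb Z a b a ^ 2) * ((Z ^ 2) a a + th Z a b a)) -
      (((Z ^ 2) b b + th Z a b b) ^ 2 -
        (ca Z a b b ^ 2 + cb Z a b b ^ 2) * ((Z ^ 2) b b + th Z a b b)) := by
  rw [← sum_trunc hab (fun c => if c = a ∨ c = b then 0 else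
      (((Z ^ 2) c c + th Z a b c) ^ 2 -
        (ca Z a b c ^ 2 + cb Z a b c ^ 2) * ((Z ^ 2) c c + th Z a b c)))
    (fun c => (((Z ^ 2) c c + th Z a b c) ^ 2 -
        (ca Z a b c ^ 2 + cb Z a b c ^ 2) * ((Z ^ 2) c c + th Z a b c)))
    (if_pos (Or.inl rfl)) (if_pos (Or.inr rfl)) (fun c h1 h2 => if_neg (by tauto))]
  refine Finset.sum_le_sum fun c _ => ?_
  by_cases hc : c = a ∨ c = b
  · rw [upd_row_zero c hc, if_pos hc]; norm_num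
  · rw [if_neg hc]
    have h0 := sq_diag_nonneg (upd_isSymm (a := a) (b := b) hZ) c
    have h1 : (upd Z a b ^ 2) c c = (Z ^ 2) c c + th Z a b c -
        (ca Z a b c ^ 2 + cb Z a b c ^ 2) := by
      rw [upd_sq_diag hab hZ h c (by tauto) (by tauto)]
      unfold th tht
      ring
    have h2 : 0 ≤ ca Z a b c ^ 2 + cb Z a b c ^ 2 := by positivity
    rw [h1] at h0 ⊢
    set W := (Z ^ 2) c c + th Z a b c
    set κ := ca Z a b c ^ 2 + cb Z a b c ^ 2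
    have h3 : 0 ≤ (W - κ) * κ := mul_nonneg h0 h2
    linarith [show (W - κ) ^ 2 = W ^ 2 - κ * W - (W - κ) * κ by ring]

/-- the additional remainder array for one surviving index, one half -/
noncomputable def H4 (lm li : ℝ) (Z : Matrix ι ι ℝ) (a b c : ι) : ℝ :=
  H4r lm li ((Z ^ 2) c c) (Z b b) (Z a c) (Z b c) ((Z ^ 2) a c) (eA Z a b)

/-- pointwise bound for the increment of `Σ ((Z²)_cc)²` -/
theorem V4_pt {a b : ι} (hlm : 0 < lm) (hli : lm * li = 1) (hab : a ≠ b) (hZ : Z.IsSymm)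
    (h : PairOK Z a b) :
    ∑ c, (upd Z a b ^ 2) c c ^ 2 - ∑ c, (Z ^ 2) c c ^ 2 ≤
      -((Z ^ 2) a a ^ 2 + (Z ^ 2) b b ^ 2) +
        (8 * (eA Z a b * ((Z ^ 2) a a ^ 2 + (Z ^ 2) b b ^ 2)) +
        32 / 5 * (|(Z ^ 2) a b| * (|Z a a| * (Z ^ 2) a a + |Z b b| * (Z ^ 2) b b))) +
        (eA Z a b * ((Z ^ 2) a a + (Z ^ 2) b b) +
          3 * (Z a a ^ 2 * (Z ^ 2) a a + Z b b ^ 2 * (Z ^ 2) b b) + eA Z a b ^ 2 +
          5 * ((Z a a ^ 2) ^ 2 + (Z b b ^ 2) ^ 2)) +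
        (∑ c, 4 * ((Z ^ 2) c c * ((Z ^ 2) a c * Z b c + Z a c * (Z ^ 2) b c)) +
        ∑ c, (HV Z a b c + HV Z b a c)) +
        (∑ c, -((Z ^ 2) c c * (Z a c ^ 2 + Z b c ^ 2)) +
        ∑ c, (H4 lm li Z a b c + H4 lm li Z b a c)) := by
  have s1 : Z b a = Z a b := hZ.apply a b
  have s2 : (Z ^ 2) b a = (Z ^ 2) a b := (symm_pow hZ 2).apply a b
  have k0 := inv_nonneg.2 h.al_pos.le
  have wa := sq_diag_nonneg hZ a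
  have wb := sq_diag_nonneg hZ b
  have hs := sq_entry_sq_le hZ a b
  have hs' : (Z ^ 2) a b ^ 2 ≤ (Z ^ 2) b b * (Z ^ 2) a a := by rw [mul_comm]; exact hs
  have h0 := sum_w_sq_upd4 hab hZ h.al_ne
  have h1 : -(((Z ^ 2) a a + th Z a b a) ^ 2 -
        (ca Z a b a ^ 2 + cb Z a b a ^ 2) * ((Z ^ 2) a a + th Z a b a)) ≤
      -(Z ^ 2) a a ^ 2 + 8 * (eA Z a b * (Z ^ 2) a a ^ 2) +
      32 / 5 * (|(Z ^ 2) a b| * (|Z a a| * (Z ^ 2) a a)) +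
      (eA Z a b * (Z ^ 2) a a + 3 * (Z a a ^ 2 * (Z ^ 2) a a) + 1 / 2 * eA Z a b ^ 2 +
        5 * (Z a a ^ 2) ^ 2) := by
    have := V4_rem_real (p := Z a a) (q := Z b b) (e := eA Z a b) k0 h.inv_le h.abs_off_le rfl
      h.eA_le wa wb hs
    unfold th ca cb
    rw [s1, s2]
    exact this
  have h2 : -(((Z ^ 2) b b + th Z a b b) ^ 2 -
        (ca Z a b b ^ 2 + cb Z a b b ^ 2) * ((Z ^ 2) b b + th Z a b b)) ≤
      -(Z ^ 2) b b ^ 2 + 8 * (eA Z a b * (Z ^ 2) b b ^ 2) +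
      32 / 5 * (|(Z ^ 2) a b| * (|Z b b| * (Z ^ 2) b b)) +
      (eA Z a b * (Z ^ 2) b b + 3 * (Z b b ^ 2 * (Z ^ 2) b b) + 1 / 2 * eA Z a b ^ 2 +
        5 * (Z b b ^ 2) ^ 2) := by
    have := V4_rem_real (p := Z b b) (q := Z a a) (e := eA Z a b) k0 h.inv_le h.abs_off_le
      (by rw [mul_comm (Z b b)]; rfl) h.eA_le wb wa hs'
    refine le_trans (le_of_eq ?_) this
    unfold th ca cb tht
    ring
  have h3 : ∑ c, (((Z ^ 2) c c + th Z a b c) ^ 2 -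
        (ca Z a b c ^ 2 + cb Z a b c ^ 2) * ((Z ^ 2) c c + th Z a b c)) ≤
      ∑ c, ((Z ^ 2) c c ^ 2 + (4 * ((Z ^ 2) c c * ((Z ^ 2) a c * Z b c + Z a c * (Z ^ 2) b c)) +
        (HV Z a b c + HV Z b a c)) + (-((Z ^ 2) c c * (Z a c ^ 2 + Z b c ^ 2)) +
        (H4 lm li Z a b c + H4 lm li Z b a c))) := by
    refine Finset.sum_le_sum fun c _ => ?_
    have c1 := V2_c_real (q := Z b b) (x := Z a c) (y := Z b c) k0 h.inv_le h.abs_off_sub_one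
      h.abs_off_le
    have c2 := V2_c_real (q := Z a a) (x := Z b c) (y := Z a c) k0 h.inv_le h.abs_off_sub_one
      h.abs_off_le
    have ecb : (al Z a b)⁻¹ * (Z a a * Z b c + (1 - Z a b) * Z a c) = cb Z a b c := by
      unfold cb; ring
    rw [ecb] at c2
    have := V4_sum_real (c1 := ca Z a b c) (c2 := cb Z a b c) (w := (Z ^ 2) c c)
      (A := (Z ^ 2) a c) (B := (Z ^ 2) b c) (sq_diag_nonneg hZ c) wa wb hs hlm hli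
      c1.1 c1.2 c2.1 c2.2
    unfold HV H4
    rw [eA_comm hZ a b]
    unfold eA
    unfold th
    linarith
  simp only [Finset.sum_add_distrib] at h3 ⊢
  linarith

/-- the additional constant of the surviving indices -/
noncomputable def K4 (lm li t σ ν b μ : ℝ) : ℝ :=
  16 / 5 * (σ * ν) + 4 * (t * ν) + 4 * (σ ^ 2 * ν) + 2 * (lm * (72 * σ ^ 4 + 98 * ν ^ 2)) +
    2 * (li * (6 * (σ ^ 2 * μ ^ 2) + 7 * b ^ 2))

theorem sumF_H4_col (hB : ZBase F Z) (hb : Bds F Z t σ v ν b) (hlm : 0 ≤ lm) (hli : 0 ≤ li)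
    (hμ : ∀ a, (Z ^ 2) a a ≤ μ ^ 2) (c : ι) :
    ∑ p ∈ F ×ˢ F, H4 lm li Z p.1 p.2 c ≤ K4 lm li t σ ν b μ * (Z ^ 2) c c ^ 2 := by
  have hw0 := fun a => sq_diag_nonneg hB.symm a
  have hw := hw0 c
  have t0 := hb.t0
  have σ0 := hb.σ0
  have ν0 := hb.ν0
  have b0 := hb.b0
  have hS := hb.SF
  have hsub : F ×ˢ F ⊆ F ×ˢ F := Finset.Subset.refl _
  have hZa := arr_mat F Z (hb.frob1 hB.symm)
  have hcol := colF_sq hB.symm F c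
  have hcolP := colPF_sq hB.symm b0 hb.op F c
  have hPe : ∀ a, (Z ^ 2) a c ^ 2 ≤ μ ^ 2 * (Z ^ 2) c c := fun a =>
    (sq_entry_sq_le hB.symm a c).trans (mul_le_mul_of_nonneg_right (hμ a) hw)
  set rc := √((Z ^ 2) c c) with hrc
  have hr0 : 0 ≤ rc := Real.sqrt_nonneg _
  have hr2 : rc * rc = (Z ^ 2) c c := Real.mul_self_sqrt hw
  have hr2' : rc ^ 2 = (Z ^ 2) c c := Real.sq_sqrt hw
  have h4 := diag_pow4_le F (f := fun a => Z a c) (col_sq hB.symm c).le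
  rw [← hrc] at h4
  have hq4 := diag_pow4_le F (f := fun a => Z a a) hb.S
  have B1 : ∑ p ∈ F ×ˢ F, |Z p.1 c| * (|Z p.2 p.2| * |Z p.2 c|) ≤ (rc * ν) * (σ * rc) :=
    sumA_mul_le hsub (f := fun a => |Z a c|) (g := fun a => |Z a a| * |Z a c|)
      (fun a => abs_nonneg _) (fun a => by positivity)
      (sumF_abs_le F (fun a => Z a c) hr0 ν0 hcol hb.NF)
      (sumF_mul_le F (fun a => Z a a) (fun a => Z a c) σ0 hr0 hS hcol)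
  have B2 : ∑ p ∈ F ×ˢ F, |Z p.1 p.2| * |Z p.2 c ^ 2| ≤ t * (rc ^ 2 * ν) :=
    sumA_arr_le hsub (fun p => Z p.1 p.2) (fun p => Z p.2 c ^ 2) t0 (by positivity) hZa
      (arr_snd F (fun a => Z a c ^ 2) h4 hb.NF)
  have B3 : ∑ p ∈ F ×ˢ F, |Z p.1 p.1| * (|Z p.2 p.2| * |Z p.2 c ^ 2|) ≤
      (σ * ν) * (σ * rc ^ 2) :=
    sumA_mul_le hsub (f := fun a => |Z a a|) (g := fun a => |Z a a| * |Z a c ^ 2|)
      (fun a => abs_nonneg _) (fun a => by positivity) hb.absS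
      (sumF_mul_le F (fun a => Z a a) (fun a => Z a c ^ 2) σ0 (sq_nonneg _) hS h4)
  have B4 : ∑ p ∈ F ×ˢ F, (Z p.1 c ^ 2) ^ 2 * (Z p.2 p.2 ^ 2) ^ 2 ≤
      (rc ^ 2) ^ 2 * (σ ^ 2) ^ 2 :=
    sumA_mul_le hsub (f := fun a => (Z a c ^ 2) ^ 2) (g := fun a => (Z a a ^ 2) ^ 2)
      (fun a => sq_nonneg _) (fun a => sq_nonneg _) h4 hq4
  have B5 : ∑ p ∈ F ×ˢ F, (1 : ℝ) * (Z p.2 c ^ 2) ^ 2 ≤ ν ^ 2 * (rc ^ 2) ^ 2 :=
    sumA_mul_le hsub (f := fun _ => (1 : ℝ)) (g := fun a => (Z a c ^ 2) ^ 2)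
      (fun a => zero_le_one) (fun a => sq_nonneg _) (by simpa using hb.NF) h4
  simp only [one_mul] at B5
  have s6 : ∑ a ∈ F, Z a c ^ 2 * (Z ^ 2) a c ^ 2 ≤ rc ^ 2 * (μ ^ 2 * (Z ^ 2) c c) := by
    refine (Finset.sum_le_sum fun a _ => mul_le_mul_of_nonneg_left (hPe a) (sq_nonneg _)).trans ?_
    rw [← Finset.sum_mul]
    exact mul_le_mul_of_nonneg_right hcol (by positivity)
  have B6 : ∑ p ∈ F ×ˢ F, (Z p.1 c ^ 2 * (Z ^ 2) p.1 c ^ 2) * Z p.2 p.2 ^ 2 ≤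
      (rc ^ 2 * (μ ^ 2 * (Z ^ 2) c c)) * σ ^ 2 :=
    sumA_mul_le hsub (f := fun a => Z a c ^ 2 * (Z ^ 2) a c ^ 2) (g := fun a => Z a a ^ 2)
      (fun a => by positivity) (fun a => sq_nonneg _) s6 hS
  have B7 : ∑ p ∈ F ×ˢ F, (Z ^ 2) p.1 c ^ 2 * Z p.2 c ^ 2 ≤ (b * rc) ^ 2 * rc ^ 2 :=
    sumA_mul_le hsub (f := fun a => (Z ^ 2) a c ^ 2) (g := fun a => Z a c ^ 2)
      (fun a => sq_nonneg _) (fun a => sq_nonneg _) hcolP hcol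
  have key : ∀ p : ι × ι, H4 lm li Z p.1 p.2 c =
      16 / 5 * ((Z ^ 2) c c * (|Z p.1 c| * (|Z p.2 p.2| * |Z p.2 c|))) +
      4 * ((Z ^ 2) c c * (|Z p.1 p.2| * |Z p.2 c ^ 2|)) +
      4 * ((Z ^ 2) c c * (|Z p.1 p.1| * (|Z p.2 p.2| * |Z p.2 c ^ 2|))) +
      144 * (lm * ((Z p.1 c ^ 2) ^ 2 * (Z p.2 p.2 ^ 2) ^ 2)) +
      196 * (lm * (Z p.2 c ^ 2) ^ 2) +
      12 * (li * ((Z p.1 c ^ 2 * (Z ^ 2) p.1 c ^ 2) * Z p.2 p.2 ^ 2)) +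
      14 * (li * ((Z ^ 2) p.1 c ^ 2 * Z p.2 c ^ 2)) := by
    intro p
    unfold H4 H4r eA
    rw [abs_mul (Z p.1 p.1), abs_of_nonneg (sq_nonneg (Z p.2 c)), ← sq_abs (Z p.2 c)]
    ring
  simp only [key, Finset.sum_add_distrib, ← Finset.mul_sum]
  have C1 := mul_le_mul_of_nonneg_left B1 hw
  have C2 := mul_le_mul_of_nonneg_left B2 hw
  have C3 := mul_le_mul_of_nonneg_left B3 hw
  have C4 := mul_le_mul_of_nonneg_left B4 hlm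
  have C5 := mul_le_mul_of_nonneg_left B5 hlm
  have C6 := mul_le_mul_of_nonneg_left B6 hli
  have C7 := mul_le_mul_of_nonneg_left B7 hli
  have R1 : (Z ^ 2) c c * ((rc * ν) * (σ * rc)) = σ * ν * (Z ^ 2) c c ^ 2 := by
    rw [← hr2]; ring
  have R2 : (Z ^ 2) c c * (t * (rc ^ 2 * ν)) = t * ν * (Z ^ 2) c c ^ 2 := by
    rw [hr2']; ring
  have R3 : (Z ^ 2) c c * ((σ * ν) * (σ * rc ^ 2)) = σ ^ 2 * ν * (Z ^ 2) c c ^ 2 := by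
    rw [hr2']; ring
  have R4 : lm * ((rc ^ 2) ^ 2 * (σ ^ 2) ^ 2) = lm * σ ^ 4 * (Z ^ 2) c c ^ 2 := by
    rw [hr2']; ring
  have R5 : lm * (ν ^ 2 * (rc ^ 2) ^ 2) = lm * ν ^ 2 * (Z ^ 2) c c ^ 2 := by
    rw [hr2']; ring
  have R6 : li * ((rc ^ 2 * (μ ^ 2 * (Z ^ 2) c c)) * σ ^ 2) =
      li * (σ ^ 2 * μ ^ 2) * (Z ^ 2) c c ^ 2 := by
    rw [hr2']; ring
  have R7 : li * ((b * rc) ^ 2 * rc ^ 2) = li * b ^ 2 * (Z ^ 2) c c ^ 2 := by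
    rw [mul_pow, hr2']; ring
  rw [R1] at C1
  rw [R2] at C2
  rw [R3] at C3
  rw [R4] at C4
  rw [R5] at C5
  rw [R6] at C6
  rw [R7] at C7
  unfold K4
  linarith

theorem H4_nonneg (hlm : 0 ≤ lm) (hli : 0 ≤ li) (hZ : Z.IsSymm) (a b c : ι) :
    0 ≤ H4 lm li Z a b c := by
  have h1 := sq_diag_nonneg hZ c
  have h2 := eA_nonneg Z a b
  unfold H4 H4r
  positivity

theorem sumA_H4_col (hB : ZBase F Z) (hb : Bds F Z t σ v ν b) (hA : AdmOK F Z A G m L)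
    (hlm : 0 ≤ lm) (hli : 0 ≤ li) (hμ : ∀ a, (Z ^ 2) a a ≤ μ ^ 2) (c : ι) :
    ∑ p ∈ A, (H4 lm li Z p.1 p.2 c + H4 lm li Z p.2 p.1 c) ≤
      2 * (K4 lm li t σ ν b μ * (Z ^ 2) c c ^ 2) := by
  have h1 : ∑ p ∈ A, (H4 lm li Z p.1 p.2 c + H4 lm li Z p.2 p.1 c) ≤
      ∑ p ∈ F ×ˢ F, (H4 lm li Z p.1 p.2 c + H4 lm li Z p.2 p.1 c) :=
    Finset.sum_le_sum_of_subset_of_nonneg hA.sub fun p _ _ =>
      add_nonneg (H4_nonneg hlm hli hB.symm _ _ _) (H4_nonneg hlm hli hB.symm _ _ _)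
  have h2 : ∑ p ∈ F ×ˢ F, H4 lm li Z p.2 p.1 c = ∑ p ∈ F ×ˢ F, H4 lm li Z p.1 p.2 c := by
    rw [Finset.sum_product, Finset.sum_product_right]
  rw [Finset.sum_add_distrib (s := F ×ˢ F), h2] at h1
  have := sumF_H4_col hB hb hlm hli hμ c
  linarith

/-- the negative array: `-Σ_A Σ_c w_c (Z_ac² + Z_bc²)` -/
theorem sumA_neg_V4 (hB : ZBase F Z) (hb : Bds F Z t σ v ν b) (hA : AdmOK F Z A G m L) :
    ∑ p ∈ A, ∑ c, -((Z ^ 2) c c * (Z p.1 c ^ 2 + Z p.2 c ^ 2)) ≤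
      -2 * ν ^ 2 * (∑ c, (Z ^ 2) c c ^ 2) + 2 * (G * v ^ 2) := by
  have hw0 := fun a => sq_diag_nonneg hB.symm a
  set f : ι → ℝ := fun a => ∑ c, (Z ^ 2) c c * Z a c ^ 2 with hf
  have hf0 : ∀ a, 0 ≤ f a := fun a =>
    Finset.sum_nonneg fun c _ => mul_nonneg (hw0 c) (sq_nonneg _)
  have hfs : ∑ a ∈ F, f a = ∑ c, (Z ^ 2) c c ^ 2 := by
    rw [Finset.sum_subset (Finset.subset_univ F) (fun x _ hx => ?_), hf, Finset.sum_comm]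
    · refine Finset.sum_congr rfl fun c _ => ?_
      rw [← Finset.mul_sum, sq ((Z ^ 2) c c)]
      congr 1
      rw [sq_diag_eq hB.symm]
      exact Finset.sum_congr rfl fun a _ => by rw [hB.symm.apply]
    · rw [hf]
      simp only
      exact Finset.sum_eq_zero fun c _ => by rw [hB.supp x c hx]; ring
  have e1 : ∀ p : ι × ι, ∑ c, -((Z ^ 2) c c * (Z p.1 c ^ 2 + Z p.2 c ^ 2)) =
      -(f p.1 + f p.2) := by
    intro p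
    rw [Finset.sum_neg_distrib, hf]
    simp only [mul_add, Finset.sum_add_distrib]
  simp only [e1]
  rw [Finset.sum_neg_distrib, sumA_eq_full_sub hA.sub (fun p => f p.1 + f p.2),
    Finset.sum_add_distrib, Finset.sum_add_distrib, Finset.sum_product, Finset.sum_product]
  simp only [Finset.sum_const, nsmul_eq_mul, ← Finset.mul_sum]
  rw [hfs, hb.N]
  have e4 := sumE_fst_le (Finset.sdiff_subset) hA.rows hf0
  have e5 := sumE_snd_le (Finset.sdiff_subset) hA.cols hf0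
  rw [hfs] at e4 e5
  have e6 := mul_le_mul_of_nonneg_left hb.V hA.G0
  linarith

/-- the additional terms of the removed indices -/
theorem sumA_rem_V4 (hB : ZBase F Z) (hb : Bds F Z t σ v ν b) (hA : AdmOK F Z A G m L) :
    ∑ p ∈ A, (eA Z p.1 p.2 * ((Z ^ 2) p.1 p.1 + (Z ^ 2) p.2 p.2) +
          3 * (Z p.1 p.1 ^ 2 * (Z ^ 2) p.1 p.1 + Z p.2 p.2 ^ 2 * (Z ^ 2) p.2 p.2) +
          eA Z p.1 p.2 ^ 2 + 5 * ((Z p.1 p.1 ^ 2) ^ 2 + (Z p.2 p.2 ^ 2) ^ 2)) ≤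
      2 * (t * v * ν) + 2 * (σ ^ 2 * v * ν) + 6 * (ν ^ 2 * σ ^ 2 * v) + 2 * t ^ 2 + 2 * σ ^ 4 +
        10 * (ν ^ 2 * σ ^ 4) := by
  have hw0 := fun a => sq_diag_nonneg hB.symm a
  have t0 := hb.t0
  have σ0 := hb.σ0
  have v0 := hb.v0
  have ν0 := hb.ν0
  have hS := hb.SF
  have hV := hb.VF
  have hN := hb.NF
  have hZa := arr_mat F Z (hb.frob1 hB.symm)
  have hq4 := diag_pow4_le F (f := fun a => Z a a) hb.S
  have a1 : ∑ p ∈ A, |Z p.1 p.2| * |(Z ^ 2) p.1 p.1| ≤ t * (v * ν) :=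
    sumA_arr_le hA.sub (fun p => Z p.1 p.2) (fun p => (Z ^ 2) p.1 p.1) t0 (by positivity) hZa
      (arr_fst F (fun a => (Z ^ 2) a a) hV hN)
  have a1' : ∑ p ∈ A, |Z p.1 p.2| * |(Z ^ 2) p.2 p.2| ≤ t * (v * ν) :=
    sumA_arr_le hA.sub (fun p => Z p.1 p.2) (fun p => (Z ^ 2) p.2 p.2) t0 (by positivity) hZa
      (arr_snd F (fun a => (Z ^ 2) a a) hV hN)
  have a2 : ∑ p ∈ A, (|Z p.1 p.1| * |(Z ^ 2) p.1 p.1|) * |Z p.2 p.2| ≤ (σ * v) * (σ * ν) :=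
    sumA_mul_le hA.sub (f := fun a => |Z a a| * |(Z ^ 2) a a|) (g := fun a => |Z a a|)
      (fun a => by positivity) (fun a => abs_nonneg _)
      (sumF_mul_le F (fun a => Z a a) (fun a => (Z ^ 2) a a) σ0 v0 hS hV) hb.absS
  have a2' : ∑ p ∈ A, |Z p.1 p.1| * (|Z p.2 p.2| * |(Z ^ 2) p.2 p.2|) ≤ (σ * ν) * (σ * v) :=
    sumA_mul_le hA.sub (f := fun a => |Z a a|) (g := fun a => |Z a a| * |(Z ^ 2) a a|)
      (fun a => abs_nonneg _) (fun a => by positivity) hb.absS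
      (sumF_mul_le F (fun a => Z a a) (fun a => (Z ^ 2) a a) σ0 v0 hS hV)
  have hqw : ∑ a ∈ F, Z a a ^ 2 * (Z ^ 2) a a ≤ σ ^ 2 * v := by
    have := sumF_mul_le F (fun a => Z a a ^ 2) (fun a => (Z ^ 2) a a) (sq_nonneg σ) v0 hq4 hV
    refine le_trans (le_of_eq (Finset.sum_congr rfl fun a _ => ?_)) this
    rw [abs_of_nonneg (sq_nonneg _), abs_of_nonneg (hw0 a)]
  have a3 : ∑ p ∈ A, (Z p.1 p.1 ^ 2 * (Z ^ 2) p.1 p.1) * 1 ≤ (σ ^ 2 * v) * ν ^ 2 :=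
    sumA_mul_le hA.sub (f := fun a => Z a a ^ 2 * (Z ^ 2) a a) (g := fun _ => (1 : ℝ))
      (fun a => mul_nonneg (sq_nonneg _) (hw0 a)) (fun _ => zero_le_one) hqw (by simpa using hN)
  have a3' : ∑ p ∈ A, 1 * (Z p.2 p.2 ^ 2 * (Z ^ 2) p.2 p.2) ≤ ν ^ 2 * (σ ^ 2 * v) :=
    sumA_mul_le hA.sub (f := fun _ => (1 : ℝ)) (g := fun a => Z a a ^ 2 * (Z ^ 2) a a)
      (fun _ => zero_le_one) (fun a => mul_nonneg (sq_nonneg _) (hw0 a)) (by simpa using hN) hqw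
  have a4 : ∑ p ∈ A, |Z p.1 p.2| * |Z p.1 p.2| ≤ t * t :=
    sumA_arr_le hA.sub (fun p => Z p.1 p.2) (fun p => Z p.1 p.2) t0 t0 hZa hZa
  have a5 : ∑ p ∈ A, Z p.1 p.1 ^ 2 * Z p.2 p.2 ^ 2 ≤ σ ^ 2 * σ ^ 2 :=
    sumA_mul_le hA.sub (f := fun a => Z a a ^ 2) (g := fun a => Z a a ^ 2)
      (fun _ => sq_nonneg _) (fun _ => sq_nonneg _) hS hS
  have a6 : ∑ p ∈ A, (Z p.1 p.1 ^ 2) ^ 2 * 1 ≤ (σ ^ 2) ^ 2 * ν ^ 2 :=
    sumA_mul_le hA.sub (f := fun a => (Z a a ^ 2) ^ 2) (g := fun _ => (1 : ℝ))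
      (fun a => sq_nonneg _) (fun _ => zero_le_one) hq4 (by simpa using hN)
  have a6' : ∑ p ∈ A, 1 * (Z p.2 p.2 ^ 2) ^ 2 ≤ ν ^ 2 * (σ ^ 2) ^ 2 :=
    sumA_mul_le hA.sub (f := fun _ => (1 : ℝ)) (g := fun a => (Z a a ^ 2) ^ 2)
      (fun _ => zero_le_one) (fun a => sq_nonneg _) (by simpa using hN) hq4
  have h1 : ∑ p ∈ A, (eA Z p.1 p.2 * ((Z ^ 2) p.1 p.1 + (Z ^ 2) p.2 p.2) +
          3 * (Z p.1 p.1 ^ 2 * (Z ^ 2) p.1 p.1 + Z p.2 p.2 ^ 2 * (Z ^ 2) p.2 p.2) +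
          eA Z p.1 p.2 ^ 2 + 5 * ((Z p.1 p.1 ^ 2) ^ 2 + (Z p.2 p.2 ^ 2) ^ 2)) ≤
      ∑ p ∈ A, ((|Z p.1 p.2| * |(Z ^ 2) p.1 p.1|) + (|Z p.1 p.2| * |(Z ^ 2) p.2 p.2|) +
        ((|Z p.1 p.1| * |(Z ^ 2) p.1 p.1|) * |Z p.2 p.2|) +
        (|Z p.1 p.1| * (|Z p.2 p.2| * |(Z ^ 2) p.2 p.2|)) +
        3 * ((Z p.1 p.1 ^ 2 * (Z ^ 2) p.1 p.1) * 1) + 3 * (1 * (Z p.2 p.2 ^ 2 * (Z ^ 2) p.2 p.2)) +
        2 * (|Z p.1 p.2| * |Z p.1 p.2|) + 2 * (Z p.1 p.1 ^ 2 * Z p.2 p.2 ^ 2) +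
        5 * ((Z p.1 p.1 ^ 2) ^ 2 * 1) + 5 * (1 * (Z p.2 p.2 ^ 2) ^ 2)) := by
    refine Finset.sum_le_sum fun p _ => ?_
    have q3 : eA Z p.1 p.2 ^ 2 ≤ 2 * (|Z p.1 p.2| * |Z p.1 p.2|) +
        2 * (Z p.1 p.1 ^ 2 * Z p.2 p.2 ^ 2) := by
      unfold eA
      have g := sq_nonneg (|Z p.1 p.2| - |Z p.1 p.1 * Z p.2 p.2|)
      have g2 : |Z p.1 p.1 * Z p.2 p.2| ^ 2 = Z p.1 p.1 ^ 2 * Z p.2 p.2 ^ 2 := by
        rw [sq_abs, mul_pow]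
      linarith [show (|Z p.1 p.2| + |Z p.1 p.1 * Z p.2 p.2|) ^ 2 +
        (|Z p.1 p.2| - |Z p.1 p.1 * Z p.2 p.2|) ^ 2 = 2 * (|Z p.1 p.2| * |Z p.1 p.2|) +
        2 * |Z p.1 p.1 * Z p.2 p.2| ^ 2 by ring]
    have q4 : eA Z p.1 p.2 * ((Z ^ 2) p.1 p.1 + (Z ^ 2) p.2 p.2) =
        (|Z p.1 p.2| * |(Z ^ 2) p.1 p.1|) + (|Z p.1 p.2| * |(Z ^ 2) p.2 p.2|) +
        ((|Z p.1 p.1| * |(Z ^ 2) p.1 p.1|) * |Z p.2 p.2|) +
        (|Z p.1 p.1| * (|Z p.2 p.2| * |(Z ^ 2) p.2 p.2|)) := by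
      unfold eA
      rw [abs_mul (Z p.1 p.1), abs_of_nonneg (hw0 p.1), abs_of_nonneg (hw0 p.2)]
      ring
    rw [q4]
    linarith
  refine h1.trans ?_
  simp only [Finset.sum_add_distrib, ← Finset.mul_sum] at a3' a6' ⊢
  linarith [show t * (v * ν) = t * v * ν by ring, show (σ * v) * (σ * ν) = σ ^ 2 * v * ν by ring,
    show (σ * ν) * (σ * v) = σ ^ 2 * v * ν by ring,
    show (σ ^ 2 * v) * ν ^ 2 = ν ^ 2 * σ ^ 2 * v by ring,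
    show ν ^ 2 * (σ ^ 2 * v) = ν ^ 2 * σ ^ 2 * v by ring,
    show t * t = t ^ 2 by ring, show σ ^ 2 * σ ^ 2 = σ ^ 4 by ring,
    show (σ ^ 2) ^ 2 * ν ^ 2 = ν ^ 2 * σ ^ 4 by ring,
    show ν ^ 2 * (σ ^ 2) ^ 2 = ν ^ 2 * σ ^ 4 by ring]

/-- the error of `V2_drift4` -/
noncomputable def errV4 (lm li t σ v ν b μ G L : ℝ) : ℝ :=
  errV t σ v ν b μ G L + 2 * (t * v * ν) + 2 * (σ ^ 2 * v * ν) + 6 * (ν ^ 2 * σ ^ 2 * v) +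
    2 * t ^ 2 + 2 * σ ^ 4 + 10 * (ν ^ 2 * σ ^ 4) + (2 * G + 2 * K4 lm li t σ ν b μ) * v ^ 2

/-- the drift of `Σ ((Z²)_cc)²` with the full rate; `lm > 0` is a free parameter, `li = lm⁻¹` -/
theorem V2_drift4 (hB : ZBase F Z) (hb : Bds F Z t σ v ν b) (hA : AdmOK F Z A G m L)
    (hμ0 : 0 ≤ μ) (hμ : ∀ a, (Z ^ 2) a a ≤ μ ^ 2) (hlm : 0 < lm) (hli : lm * li = 1) :
    ∑ p ∈ A, (∑ c, (upd Z p.1 p.2 ^ 2) c c ^ 2 - ∑ c, (Z ^ 2) c c ^ 2) ≤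
      -4 * ν ^ 2 * (∑ c, (Z ^ 2) c c ^ 2) + errV4 lm li t σ v ν b μ G L := by
  have hli0 : 0 ≤ li := by
    by_contra hh
    push Not at hh
    have := mul_neg_of_pos_of_neg hlm hh
    linarith
  have h1 : ∑ p ∈ A, (∑ c, (upd Z p.1 p.2 ^ 2) c c ^ 2 - ∑ c, (Z ^ 2) c c ^ 2) ≤
      ∑ p ∈ A, ((-((Z ^ 2) p.1 p.1 ^ 2 + (Z ^ 2) p.2 p.2 ^ 2) +
        (8 * (eA Z p.1 p.2 * ((Z ^ 2) p.1 p.1 ^ 2 + (Z ^ 2) p.2 p.2 ^ 2)) +
        32 / 5 * (|(Z ^ 2) p.1 p.2| *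
          (|Z p.1 p.1| * (Z ^ 2) p.1 p.1 + |Z p.2 p.2| * (Z ^ 2) p.2 p.2))) +
        (∑ c, 4 * ((Z ^ 2) c c * ((Z ^ 2) p.1 c * Z p.2 c + Z p.1 c * (Z ^ 2) p.2 c)) +
        ∑ c, (HV Z p.1 p.2 c + HV Z p.2 p.1 c))) +
        (eA Z p.1 p.2 * ((Z ^ 2) p.1 p.1 + (Z ^ 2) p.2 p.2) +
          3 * (Z p.1 p.1 ^ 2 * (Z ^ 2) p.1 p.1 + Z p.2 p.2 ^ 2 * (Z ^ 2) p.2 p.2) +
          eA Z p.1 p.2 ^ 2 + 5 * ((Z p.1 p.1 ^ 2) ^ 2 + (Z p.2 p.2 ^ 2) ^ 2)) +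
        ∑ c, -((Z ^ 2) c c * (Z p.1 c ^ 2 + Z p.2 c ^ 2)) +
        ∑ c, (H4 lm li Z p.1 p.2 c + H4 lm li Z p.2 p.1 c)) :=
    Finset.sum_le_sum fun p hp => by
      have := V4_pt (lm := lm) (li := li) hlm hli (hA.ok p hp).1 hB.symm (hA.ok p hp).2
      linarith
  rw [Finset.sum_add_distrib, Finset.sum_add_distrib, Finset.sum_add_distrib] at h1
  have h2 := V2_main_sum hB hb hA hμ0 hμ
  have h3 := sumA_rem_V4 hB hb hA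
  have h4 := sumA_neg_V4 hB hb hA
  have h5 : ∑ p ∈ A, ∑ c, (H4 lm li Z p.1 p.2 c + H4 lm li Z p.2 p.1 c) ≤
      2 * K4 lm li t σ ν b μ * v ^ 2 := by
    rw [Finset.sum_comm]
    refine (Finset.sum_le_sum fun (c : ι) (_ : c ∈ Finset.univ) =>
      sumA_H4_col hB hb hA hlm.le hli0 hμ c).trans ?_
    rw [← Finset.mul_sum, ← Finset.mul_sum]
    have hK : 0 ≤ K4 lm li t σ ν b μ := by
      have := hb.t0
      have := hb.σ0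
      have := hb.ν0
      unfold K4
      have := hlm.le
      positivity
    have := mul_le_mul_of_nonneg_left hb.V hK
    linarith
  unfold errV4
  linarith

end Vale.Agent.P049.TS
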