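import Vale.Agent.P049.TS.Final.T2

/-!
The drift of `Σ Z_cc²` over the admissible pairs.
-/

set_option linter.unusedSectionVars false

namespace Vale.Agent.P049.TS

open Matrix Finset

variable {ι : Type*} [Fintype ι] [DecidableEq ι]
variable {F : Finset ι} {Z : Matrix ι ι ℝ} {A : Finset (ι × ι)} {G m L t σ v ν b : ℝ}

/-- the increment of the diagonal entry `Z_cc` -/
noncomputable def dl (Z : Matrix ι ι ℝ) (a b c : ι) : ℝ :=
  ca Z a b c * Z a c + cb Z a b c * Z b c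

theorem sum_trunc {a b : ι} (hab : a ≠ b) (f g : ι → ℝ) (ha : f a = 0) (hb : f b = 0)
    (h : ∀ c, c ≠ a → c ≠ b → f c = g c) : ∑ c, f c = ∑ c, g c - g a - g b := by
  have h1 : ∑ c, (g c - f c) = (g a - f a) + (g b - f b) :=
    Fintype.sum_eq_add a b hab fun c hc => by rw [h c hc.1 hc.2, sub_self]
  rw [Finset.sum_sub_distrib, ha, hb] at h1
  linarith

theorem sum_diag_sq_upd {a b : ι} (hab : a ≠ b) (hZ : Z.IsSymm) :
    ∑ c, upd Z a b c c ^ 2 = ∑ c, (Z c c + dl Z a b c) ^ 2 - (Z a a + dl Z a b a) ^ 2 -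
      (Z b b + dl Z a b b) ^ 2 := by
  have ha : upd Z a b a a = 0 := by rw [upd, Matrix.of_apply]; simp
  have hb : upd Z a b b b = 0 := by rw [upd, Matrix.of_apply]; simp
  refine sum_trunc hab (fun c => upd Z a b c c ^ 2) (fun c => (Z c c + dl Z a b c) ^ 2) ?_ ?_ ?_
  · show upd Z a b a a ^ 2 = 0
    rw [ha]; norm_num
  · show upd Z a b b b ^ 2 = 0
    rw [hb]; norm_num
  · intro c hca hcb
    show upd Z a b c c ^ 2 = (Z c c + dl Z a b c) ^ 2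
    rw [upd_apply' hZ c c hca hcb hca hcb, dl]
    ring

/-- the real inequality for a removed index -/
theorem S1_rem_real {ai r p q : ℝ} (h0 : 0 ≤ ai) (h1 : ai ≤ 8 / 5) (hr : |r| ≤ 1 / 8) :
    -(p + (ai * (q * p + (1 - r) * r) * p + ai * ((1 - r) * p + p * r) * r)) ^ 2 ≤
      -p ^ 2 + 7 * ((|r| + |p * q|) * p ^ 2) := by
  set x := ai * (q * p + (1 - r) * r) * p + ai * ((1 - r) * p + p * r) * r with hx
  have e1 : x = ai * (p * (p * q + r * (2 - r))) := by rw [hx]; ring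
  have e2 : -(2 * p * x) ≤ 2 * (8 / 5 * (p ^ 2 * (|p * q| + 17 / 8 * |r|))) := by
    have hr' := abs_le.1 hr
    have f1 : |p * q + r * (2 - r)| ≤ |p * q| + 17 / 8 * |r| := by
      refine (abs_add_le _ _).trans (add_le_add le_rfl ?_)
      rw [abs_mul, mul_comm]
      refine mul_le_mul_of_nonneg_right ?_ (abs_nonneg _)
      rw [abs_le]; constructor <;> linarith [hr'.1, hr'.2]
    have f2 : -(p ^ 2 * (p * q + r * (2 - r))) ≤ p ^ 2 * (|p * q| + 17 / 8 * |r|) := by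
      rw [← mul_neg]
      exact mul_le_mul_of_nonneg_left ((neg_le_abs _).trans f1) (sq_nonneg _)
    have f3 : ai * -(p ^ 2 * (p * q + r * (2 - r))) ≤
        8 / 5 * (p ^ 2 * (|p * q| + 17 / 8 * |r|)) := by
      refine (mul_le_mul_of_nonneg_left f2 h0).trans ?_
      exact mul_le_mul_of_nonneg_right h1 (by positivity)
    rw [e1]
    linarith [show -(2 * p * (ai * (p * (p * q + r * (2 - r))))) =
      2 * (ai * -(p ^ 2 * (p * q + r * (2 - r)))) by ring]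
  have e3 := sq_nonneg x
  have e4 : 0 ≤ p ^ 2 * |p * q| := by positivity
  have e5 : 0 ≤ p ^ 2 * |r| := by positivity
  have e6 : -(p + x) ^ 2 = -p ^ 2 + -(2 * p * x) - x ^ 2 := by ring
  rw [e6]
  linarith [show 2 * (8 / 5 * (p ^ 2 * (|p * q| + 17 / 8 * |r|))) =
    16 / 5 * (p ^ 2 * |p * q|) + 34 / 5 * (p ^ 2 * |r|) by ring,
    show 7 * ((|r| + |p * q|) * p ^ 2) = 7 * (p ^ 2 * |p * q|) + 7 * (p ^ 2 * |r|) by ring]

/-- the real inequality for a surviving index -/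
theorem S1_sum_real {ai r p q x y z e : ℝ} (h0 : 0 ≤ ai) (h1 : ai ≤ 8 / 5)
    (h3 : |ai * (1 - r) - 1| ≤ 2 * e) (h4 : |ai * (1 - r)| ≤ 9 / 5) :
    (z + (ai * (q * x + (1 - r) * y) * x + ai * ((1 - r) * x + p * y) * y)) ^ 2 ≤
      z ^ 2 + (4 * (z * (x * y)) + 8 * (e * (|z| * (|x| * |y|))) +
        16 / 5 * (|z| * (|q| * x ^ 2 + |p| * y ^ 2)) + 26 * (x * y) ^ 2 +
        11 * ((x ^ 2) ^ 2 * q ^ 2 + (y ^ 2) ^ 2 * p ^ 2)) := by
  set u := 2 * (ai * (1 - r)) * (x * y) + ai * (x ^ 2 * q + y ^ 2 * p) with hu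
  have e1 : ai * (q * x + (1 - r) * y) * x + ai * ((1 - r) * x + p * y) * y = u := by
    rw [hu]; ring
  have e2 : u ^ 2 ≤ 26 * (x * y) ^ 2 + 11 * ((x ^ 2) ^ 2 * q ^ 2 + (y ^ 2) ^ 2 * p ^ 2) :=
    T2_sq_real1 h0 h1 h4 (sq_nonneg x) (sq_nonneg y)
  have e3 : 2 * z * u ≤ 4 * (z * (x * y)) + 8 * (e * (|z| * (|x| * |y|))) +
      16 / 5 * (|z| * (|q| * x ^ 2 + |p| * y ^ 2)) := by
    have g1 : 4 * ((ai * (1 - r) - 1) * (z * (x * y))) ≤ 8 * (e * (|z| * (|x| * |y|))) := by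
      have : (ai * (1 - r) - 1) * (z * (x * y)) ≤ 2 * e * (|z| * (|x| * |y|)) := by
        refine (le_abs_self _).trans ?_
        rw [abs_mul, abs_mul z, abs_mul x]
        exact mul_le_mul_of_nonneg_right h3 (by positivity)
      linarith
    have g2 : z * (x ^ 2 * q + y ^ 2 * p) ≤ |z| * (|q| * x ^ 2 + |p| * y ^ 2) := by
      refine (le_abs_self _).trans ?_
      rw [abs_mul]
      refine mul_le_mul_of_nonneg_left ((abs_add_le _ _).trans ?_) (abs_nonneg _)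
      rw [abs_mul, abs_mul, abs_of_nonneg (sq_nonneg x), abs_of_nonneg (sq_nonneg y)]
      exact le_of_eq (by ring)
    have g3 : ai * (z * (x ^ 2 * q + y ^ 2 * p)) ≤
        8 / 5 * (|z| * (|q| * x ^ 2 + |p| * y ^ 2)) :=
      (mul_le_mul_of_nonneg_left g2 h0).trans (mul_le_mul_of_nonneg_right h1 (by positivity))
    rw [hu]
    linarith [show 2 * z * (2 * (ai * (1 - r)) * (x * y) + ai * (x ^ 2 * q + y ^ 2 * p)) =
      4 * (z * (x * y)) + 4 * ((ai * (1 - r) - 1) * (z * (x * y))) +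
      2 * (ai * (z * (x ^ 2 * q + y ^ 2 * p))) by ring]
  rw [e1]
  linarith [show (z + u) ^ 2 = z ^ 2 + 2 * z * u + u ^ 2 by ring]

/-- the remainder array of `S₁` for one surviving index -/
noncomputable def RS1 (Z : Matrix ι ι ℝ) (a b c : ι) : ℝ :=
  8 * (eA Z a b * (|Z c c| * (|Z a c| * |Z b c|))) +
    16 / 5 * (|Z c c| * (|Z b b| * Z a c ^ 2 + |Z a a| * Z b c ^ 2)) +
    26 * (Z a c * Z b c) ^ 2 + 11 * ((Z a c ^ 2) ^ 2 * Z b b ^ 2 + (Z b c ^ 2) ^ 2 * Z a a ^ 2)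

/-- pointwise bound for the increment of `Σ Z_cc²` -/
theorem S1_pt {a b : ι} (hab : a ≠ b) (hZ : Z.IsSymm) (h : PairOK Z a b) :
    ∑ c, upd Z a b c c ^ 2 - ∑ c, Z c c ^ 2 ≤
      -(Z a a ^ 2 + Z b b ^ 2) + 7 * (eA Z a b * (Z a a ^ 2 + Z b b ^ 2)) +
        (∑ c, 4 * (Z c c * (Z a c * Z b c)) + ∑ c, RS1 Z a b c) := by
  have s1 : Z b a = Z a b := hZ.apply a b
  have k0 := inv_nonneg.2 h.al_pos.le
  rw [sum_diag_sq_upd hab hZ]
  have h1 : -(Z a a + dl Z a b a) ^ 2 ≤ -Z a a ^ 2 + 7 * (eA Z a b * Z a a ^ 2) := by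
    have := S1_rem_real (p := Z a a) (q := Z b b) k0 h.inv_le h.1
    unfold dl ca cb eA
    rw [s1]
    exact this
  have h2 : -(Z b b + dl Z a b b) ^ 2 ≤ -Z b b ^ 2 + 7 * (eA Z a b * Z b b ^ 2) := by
    have := S1_rem_real (p := Z b b) (q := Z a a) k0 h.inv_le h.1
    unfold dl ca cb eA
    rw [mul_comm (Z a a) (Z b b)]
    have e : (al Z a b)⁻¹ * (Z b b * Z a b + (1 - Z a b) * Z b b) * Z a b +
        (al Z a b)⁻¹ * ((1 - Z a b) * Z a b + Z b b * Z a a) * Z b b =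
      (al Z a b)⁻¹ * (Z a a * Z b b + (1 - Z a b) * Z a b) * Z b b +
        (al Z a b)⁻¹ * ((1 - Z a b) * Z b b + Z b b * Z a b) * Z a b := by ring
    rw [e]
    exact this
  have h3 : ∑ c, (Z c c + dl Z a b c) ^ 2 ≤
      ∑ c, (Z c c ^ 2 + (4 * (Z c c * (Z a c * Z b c)) + RS1 Z a b c)) := by
    refine Finset.sum_le_sum fun c _ => ?_
    have := S1_sum_real (p := Z a a) (q := Z b b) (x := Z a c) (y := Z b c) (z := Z c c)
      k0 h.inv_le h.abs_off_sub_one h.abs_off_le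
    unfold dl ca cb RS1 eA
    linarith
  rw [Finset.sum_add_distrib, Finset.sum_add_distrib] at h3
  linarith

namespace Bds

variable (hb : Bds F Z t σ v ν b)
include hb

theorem sumC (g : ι → ℝ) (hg : ∀ c, g c = (Z ^ 2) c c) (h0 : ∀ c, 0 ≤ (Z ^ 2) c c) :
    ∑ c, |Z c c| * g c ≤ σ * v := by
  have := sumF_mul_le Finset.univ (fun c => Z c c) (fun c => (Z ^ 2) c c) hb.σ0 hb.v0 hb.S hb.V
  simpa [hg, abs_of_nonneg (h0 _)] using this

end Bds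

theorem col_sq (hZ : Z.IsSymm) (c : ι) : ∑ a, Z a c ^ 2 = √((Z ^ 2) c c) ^ 2 := by
  rw [Real.sq_sqrt (sq_diag_nonneg hZ c), sq_diag_eq hZ]
  exact Finset.sum_congr rfl fun a _ => by rw [hZ.apply]

theorem colF_sq (hZ : Z.IsSymm) (F : Finset ι) (c : ι) :
    ∑ a ∈ F, Z a c ^ 2 ≤ √((Z ^ 2) c c) ^ 2 :=
  (sumF_le_univ F fun _ => sq_nonneg _).trans (col_sq hZ c).le

/-- the column sums over `F` -/
theorem ZBase.colsum_sq (h : ZBase F Z) (c : ι) (hc : c ∈ F) : ∑ a ∈ F, Z a c = 1 := by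
  have := h.row_F 0 hc
  rw [zero_add, pow_one] at this
  rw [← this]
  exact Finset.sum_congr rfl fun a _ => h.symm.apply c a

/-- replacing the sum over `A` by the full sum -/
theorem sumA_eq_full_sub (hA : A ⊆ F ×ˢ F) (f : ι × ι → ℝ) :
    ∑ p ∈ A, f p = ∑ p ∈ F ×ˢ F, f p - ∑ p ∈ (F ×ˢ F) \ A, f p := by
  rw [← Finset.sum_sdiff hA (f := f)]; ring

/-- the main linear array for one index -/
theorem sumA_lin_col (hB : ZBase F Z) (hA : AdmOK F Z A G m L) (c : ι) :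
    Z c c * ∑ p ∈ A, Z p.1 c * Z p.2 c ≤ |Z c c| + L * (|Z c c| * (Z ^ 2) c c) := by
  by_cases hc : c ∈ F
  · have hw := sq_diag_nonneg hB.symm c
    rw [sumA_eq_full_sub hA.sub (fun p => Z p.1 c * Z p.2 c),
      sum_pairs_mul F (fun a => Z a c) (fun a => Z a c), hB.colsum_sq c hc]
    have h1 : |∑ p ∈ (F ×ˢ F) \ A, Z p.1 c * Z p.2 c| ≤ L * (Z ^ 2) c c := by
      refine (Finset.abs_sum_le_sum_abs _ _).trans ?_
      have := hA.quad (fun a => Z a c) (fun a => Z a c) _ _ (Real.sqrt_nonneg _)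
        (Real.sqrt_nonneg _) (col_sq hB.symm c).le (col_sq hB.symm c).le
      rw [Real.mul_self_sqrt hw] at this
      simpa only [abs_mul] using this
    have h2 : -(Z c c * ∑ p ∈ (F ×ˢ F) \ A, Z p.1 c * Z p.2 c) ≤ |Z c c| * (L * (Z ^ 2) c c) := by
      refine (neg_le_abs _).trans ?_
      rw [abs_mul]
      exact mul_le_mul_of_nonneg_left h1 (abs_nonneg _)
    have h3 := le_abs_self (Z c c)
    linarith [show |Z c c| * (L * (Z ^ 2) c c) = L * (|Z c c| * (Z ^ 2) c c) by ring,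
      show Z c c * (1 * 1 - ∑ p ∈ (F ×ˢ F) \ A, Z p.1 c * Z p.2 c) = Z c c +
        -(Z c c * ∑ p ∈ (F ×ˢ F) \ A, Z p.1 c * Z p.2 c) by ring]
  · rw [hB.supp c c hc]; simp

theorem sumA_RS1_col (hB : ZBase F Z) (hb : Bds F Z t σ v ν b) (hA : AdmOK F Z A G m L) (c : ι) :
    ∑ p ∈ A, RS1 Z p.1 p.2 c ≤
      (8 * t + 8 * σ ^ 2 + 32 / 5 * (σ * ν)) * (|Z c c| * (Z ^ 2) c c) +
        (26 + 22 * σ ^ 2) * (Z ^ 2) c c ^ 2 := by
  have hw := sq_diag_nonneg hB.symm c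
  have t0 := hb.t0
  have σ0 := hb.σ0
  have ν0 := hb.ν0
  have hS := hb.SF
  have hZa := arr_mat F Z (hb.frob1 hB.symm)
  have hcol := colF_sq hB.symm F c
  set rc := √((Z ^ 2) c c) with hrc
  have hr0 : 0 ≤ rc := Real.sqrt_nonneg _
  have hr2 : rc * rc = (Z ^ 2) c c := Real.mul_self_sqrt hw
  have hr2' : rc ^ 2 = (Z ^ 2) c c := Real.sq_sqrt hw
  have b1 : ∑ p ∈ A, |Z p.1 p.2| * |Z p.1 c * Z p.2 c| ≤ t * (rc * rc) :=
    sumA_arr_le hA.sub (fun p => Z p.1 p.2) (fun p => Z p.1 c * Z p.2 c) t0 (by positivity) hZa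
      (arr_mul F (fun a => Z a c) (fun a => Z a c) hcol hcol)
  have b2 : ∑ p ∈ A, (|Z p.1 p.1| * |Z p.1 c|) * (|Z p.2 p.2| * |Z p.2 c|) ≤
      (σ * rc) * (σ * rc) :=
    sumA_mul_le hA.sub (f := fun a => |Z a a| * |Z a c|) (g := fun a => |Z a a| * |Z a c|)
      (fun a => by positivity) (fun a => by positivity)
      (sumF_mul_le F (fun a => Z a a) (fun a => Z a c) σ0 hr0 hS hcol)
      (sumF_mul_le F (fun a => Z a a) (fun a => Z a c) σ0 hr0 hS hcol)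
  have b3 : ∑ p ∈ A, Z p.1 c ^ 2 * |Z p.2 p.2| ≤ rc ^ 2 * (σ * ν) :=
    sumA_mul_le hA.sub (f := fun a => Z a c ^ 2) (g := fun a => |Z a a|)
      (fun a => sq_nonneg _) (fun a => abs_nonneg _) hcol hb.absS
  have b3' : ∑ p ∈ A, |Z p.1 p.1| * Z p.2 c ^ 2 ≤ (σ * ν) * rc ^ 2 :=
    sumA_mul_le hA.sub (f := fun a => |Z a a|) (g := fun a => Z a c ^ 2)
      (fun a => abs_nonneg _) (fun a => sq_nonneg _) hb.absS hcol
  have b4 : ∑ p ∈ A, Z p.1 c ^ 2 * Z p.2 c ^ 2 ≤ rc ^ 2 * rc ^ 2 :=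
    sumA_mul_le hA.sub (f := fun a => Z a c ^ 2) (g := fun a => Z a c ^ 2)
      (fun a => sq_nonneg _) (fun a => sq_nonneg _) hcol hcol
  have h4 := diag_pow4_le F (f := fun a => Z a c) (col_sq hB.symm c).le
  have b5 : ∑ p ∈ A, (Z p.1 c ^ 2) ^ 2 * Z p.2 p.2 ^ 2 ≤ (rc ^ 2) ^ 2 * σ ^ 2 :=
    sumA_mul_le hA.sub (f := fun a => (Z a c ^ 2) ^ 2) (g := fun a => Z a a ^ 2)
      (fun a => sq_nonneg _) (fun a => sq_nonneg _) h4 hS
  have b5' : ∑ p ∈ A, Z p.1 p.1 ^ 2 * (Z p.2 c ^ 2) ^ 2 ≤ σ ^ 2 * (rc ^ 2) ^ 2 :=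
    sumA_mul_le hA.sub (f := fun a => Z a a ^ 2) (g := fun a => (Z a c ^ 2) ^ 2)
      (fun a => sq_nonneg _) (fun a => sq_nonneg _) hS h4
  have key : ∀ p : ι × ι, RS1 Z p.1 p.2 c =
      8 * (|Z c c| * (|Z p.1 p.2| * |Z p.1 c * Z p.2 c|)) +
      8 * (|Z c c| * ((|Z p.1 p.1| * |Z p.1 c|) * (|Z p.2 p.2| * |Z p.2 c|))) +
      16 / 5 * (|Z c c| * (Z p.1 c ^ 2 * |Z p.2 p.2|)) +
      16 / 5 * (|Z c c| * (|Z p.1 p.1| * Z p.2 c ^ 2)) +
      26 * (Z p.1 c ^ 2 * Z p.2 c ^ 2) + 11 * ((Z p.1 c ^ 2) ^ 2 * Z p.2 p.2 ^ 2) +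
      11 * (Z p.1 p.1 ^ 2 * (Z p.2 c ^ 2) ^ 2) := by
    intro p
    unfold RS1 eA
    rw [abs_mul (Z p.1 p.1), abs_mul (Z p.1 c)]
    ring
  simp only [key, Finset.sum_add_distrib, ← Finset.mul_sum]
  rw [hr2] at b1
  rw [hr2'] at b3 b3' b4 b5 b5'
  have c1 := mul_le_mul_of_nonneg_left b1 (abs_nonneg (Z c c))
  have c2 := mul_le_mul_of_nonneg_left b2 (abs_nonneg (Z c c))
  have c3 := mul_le_mul_of_nonneg_left b3 (abs_nonneg (Z c c))
  have c3' := mul_le_mul_of_nonneg_left b3' (abs_nonneg (Z c c))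
  have r2 : |Z c c| * ((σ * rc) * (σ * rc)) = σ ^ 2 * (|Z c c| * (Z ^ 2) c c) := by
    rw [← hr2]; ring
  rw [r2] at c2
  linarith [show |Z c c| * (t * (Z ^ 2) c c) = t * (|Z c c| * (Z ^ 2) c c) by ring,
    show |Z c c| * ((Z ^ 2) c c * (σ * ν)) = σ * ν * (|Z c c| * (Z ^ 2) c c) by ring,
    show |Z c c| * ((σ * ν) * (Z ^ 2) c c) = σ * ν * (|Z c c| * (Z ^ 2) c c) by ring]

/-- the error of `S1_drift` -/
noncomputable def errS (t σ v ν G L : ℝ) : ℝ :=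
  2 * (G * σ ^ 2) + 14 * (t * σ ^ 2 * ν) + 14 * (σ ^ 4 * ν) + 4 * (σ * ν) + 4 * (L * (σ * v)) +
    (8 * t + 8 * σ ^ 2 + 32 / 5 * (σ * ν)) * (σ * v) + (26 + 22 * σ ^ 2) * v ^ 2

/-- the drift of `Σ Z_cc²` -/
theorem S1_drift (hB : ZBase F Z) (hb : Bds F Z t σ v ν b) (hA : AdmOK F Z A G m L) :
    ∑ p ∈ A, (∑ c, upd Z p.1 p.2 c c ^ 2 - ∑ c, Z c c ^ 2) ≤
      -2 * ν ^ 2 * (∑ c, Z c c ^ 2) + errS t σ v ν G L := by
  have t0 := hb.t0
  have σ0 := hb.σ0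
  have v0 := hb.v0
  have ν0 := hb.ν0
  have h1 : ∑ p ∈ A, (∑ c, upd Z p.1 p.2 c c ^ 2 - ∑ c, Z c c ^ 2) ≤
      ∑ p ∈ A, (-(Z p.1 p.1 ^ 2 + Z p.2 p.2 ^ 2) +
        7 * (eA Z p.1 p.2 * (Z p.1 p.1 ^ 2 + Z p.2 p.2 ^ 2)) +
        (∑ c, 4 * (Z c c * (Z p.1 c * Z p.2 c)) + ∑ c, RS1 Z p.1 p.2 c)) :=
    Finset.sum_le_sum fun p hp => S1_pt (hA.ok p hp).1 hB.symm (hA.ok p hp).2
  rw [Finset.sum_add_distrib, Finset.sum_add_distrib, Finset.sum_add_distrib] at h1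
  -- the diagonal terms
  have hSS : ∑ a ∈ F, Z a a ^ 2 = ∑ a, Z a a ^ 2 :=
    Finset.sum_subset (Finset.subset_univ F) fun x _ hx => by rw [hB.supp x x hx]; norm_num
  have h2 : ∑ p ∈ A, -(Z p.1 p.1 ^ 2 + Z p.2 p.2 ^ 2) ≤
      -2 * ν ^ 2 * (∑ c, Z c c ^ 2) + 2 * (G * σ ^ 2) := by
    rw [Finset.sum_neg_distrib, sumA_eq_full_sub hA.sub (fun p => Z p.1 p.1 ^ 2 + Z p.2 p.2 ^ 2),
      Finset.sum_add_distrib, Finset.sum_add_distrib, Finset.sum_product, Finset.sum_product]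
    simp only [Finset.sum_const, nsmul_eq_mul, ← Finset.mul_sum]
    rw [hSS, hb.N]
    have e4 := sumE_fst_le (Finset.sdiff_subset) hA.rows (f := fun a => Z a a ^ 2)
      fun a => sq_nonneg _
    have e5 := sumE_snd_le (Finset.sdiff_subset) hA.cols (f := fun a => Z a a ^ 2)
      fun a => sq_nonneg _
    have e6 := mul_le_mul_of_nonneg_left hb.SF hA.G0
    linarith
  have hZa := arr_mat F Z (hb.frob1 hB.symm)
  have hq4 := diag_pow4_le F (f := fun a => Z a a) hb.S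
  have hp3 := sumF_mul_le F (fun a => Z a a) (fun a => Z a a ^ 2) σ0 (sq_nonneg σ) hb.SF hq4
  have a7 : ∑ p ∈ A, |Z p.1 p.2| * |Z p.1 p.1 ^ 2| ≤ t * (σ ^ 2 * ν) :=
    sumA_arr_le hA.sub (fun p => Z p.1 p.2) (fun p => Z p.1 p.1 ^ 2) t0 (by positivity) hZa
      (arr_fst F (fun a => Z a a ^ 2) hq4 hb.NF)
  have a7' : ∑ p ∈ A, |Z p.1 p.2| * |Z p.2 p.2 ^ 2| ≤ t * (σ ^ 2 * ν) :=
    sumA_arr_le hA.sub (fun p => Z p.1 p.2) (fun p => Z p.2 p.2 ^ 2) t0 (by positivity) hZa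
      (arr_snd F (fun a => Z a a ^ 2) hq4 hb.NF)
  have a8 : ∑ p ∈ A, (|Z p.1 p.1| * |Z p.1 p.1 ^ 2|) * |Z p.2 p.2| ≤ (σ * σ ^ 2) * (σ * ν) :=
    sumA_mul_le hA.sub (f := fun a => |Z a a| * |Z a a ^ 2|) (g := fun a => |Z a a|)
      (fun a => by positivity) (fun a => abs_nonneg _) hp3 hb.absS
  have a8' : ∑ p ∈ A, |Z p.1 p.1| * (|Z p.2 p.2| * |Z p.2 p.2 ^ 2|) ≤ (σ * ν) * (σ * σ ^ 2) :=
    sumA_mul_le hA.sub (f := fun a => |Z a a|) (g := fun a => |Z a a| * |Z a a ^ 2|)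
      (fun a => abs_nonneg _) (fun a => by positivity) hb.absS hp3
  have h3 : ∑ p ∈ A, 7 * (eA Z p.1 p.2 * (Z p.1 p.1 ^ 2 + Z p.2 p.2 ^ 2)) ≤
      14 * (t * σ ^ 2 * ν) + 14 * (σ ^ 4 * ν) := by
    have key : ∀ p : ι × ι, 7 * (eA Z p.1 p.2 * (Z p.1 p.1 ^ 2 + Z p.2 p.2 ^ 2)) =
        7 * (|Z p.1 p.2| * |Z p.1 p.1 ^ 2|) + 7 * (|Z p.1 p.2| * |Z p.2 p.2 ^ 2|) +
        7 * ((|Z p.1 p.1| * |Z p.1 p.1 ^ 2|) * |Z p.2 p.2|) +
        7 * (|Z p.1 p.1| * (|Z p.2 p.2| * |Z p.2 p.2 ^ 2|)) := by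
      intro p
      unfold eA
      rw [abs_mul (Z p.1 p.1), abs_of_nonneg (sq_nonneg (Z p.1 p.1)),
        abs_of_nonneg (sq_nonneg (Z p.2 p.2))]
      ring
    simp only [key, Finset.sum_add_distrib, ← Finset.mul_sum]
    linarith [show t * (σ ^ 2 * ν) = t * σ ^ 2 * ν by ring,
      show (σ * σ ^ 2) * (σ * ν) = σ ^ 4 * ν by ring,
      show (σ * ν) * (σ * σ ^ 2) = σ ^ 4 * ν by ring]
  -- the sums over the surviving index
  have hzv : ∑ c, |Z c c| * (Z ^ 2) c c ≤ σ * v :=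
    hb.sumC (fun c => (Z ^ 2) c c) (fun _ => rfl) fun c => sq_diag_nonneg hB.symm c
  have habs : ∑ c, |Z c c| ≤ σ * ν := by
    refine le_trans (le_of_eq ?_) hb.absS
    exact (Finset.sum_subset (Finset.subset_univ F) fun x _ hx => by
      rw [hB.supp x x hx, abs_zero]).symm
  have h4 : ∑ p ∈ A, ∑ c, 4 * (Z c c * (Z p.1 c * Z p.2 c)) ≤
      4 * (σ * ν) + 4 * (L * (σ * v)) := by
    rw [Finset.sum_comm]
    simp only [← Finset.mul_sum]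
    have := Finset.sum_le_sum fun (c : ι) (_ : c ∈ Finset.univ) => sumA_lin_col hB hA c
    rw [Finset.sum_add_distrib, ← Finset.mul_sum] at this
    have h5 := mul_le_mul_of_nonneg_left hzv hA.L0
    linarith
  have h5 : ∑ p ∈ A, ∑ c, RS1 Z p.1 p.2 c ≤
      (8 * t + 8 * σ ^ 2 + 32 / 5 * (σ * ν)) * (σ * v) + (26 + 22 * σ ^ 2) * v ^ 2 := by
    rw [Finset.sum_comm]
    refine (Finset.sum_le_sum fun (c : ι) (_ : c ∈ Finset.univ) =>
      sumA_RS1_col hB hb hA c).trans ?_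
    rw [Finset.sum_add_distrib, ← Finset.mul_sum, ← Finset.mul_sum]
    exact add_le_add (mul_le_mul_of_nonneg_left hzv (by positivity))
      (mul_le_mul_of_nonneg_left hb.V (by positivity))
  unfold errS
  linarith

end Vale.Agent.P049.TS
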