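import Vale.Agent.P049.TS.Final.Base

/-!
The drift of `tr Z²` over the admissible pairs.
-/

set_option linter.unusedSectionVars false

namespace Vale.Agent.P049.TS

open Matrix Finset

variable {ι : Type*} [Fintype ι] [DecidableEq ι]
variable {F : Finset ι} {Z : Matrix ι ι ℝ} {A : Finset (ι × ι)} {G m L t σ v ν b : ℝ}

theorem sumF_le_univ (F : Finset ι) {f : ι → ℝ} (hf : ∀ a, 0 ≤ f a) : ∑ a ∈ F, f a ≤ ∑ a, f a :=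
  Finset.sum_le_sum_of_subset_of_nonneg (Finset.subset_univ F) fun a _ _ => hf a

theorem diag_pow4_le (F : Finset ι) {f : ι → ℝ} {σ : ℝ} (h : ∑ a, f a ^ 2 ≤ σ ^ 2) :
    ∑ a ∈ F, (f a ^ 2) ^ 2 ≤ (σ ^ 2) ^ 2 := by
  have h1 : ∀ a, f a ^ 2 ≤ σ ^ 2 := fun a =>
    (Finset.single_le_sum (f := fun a => f a ^ 2) (fun _ _ => sq_nonneg _)
      (Finset.mem_univ a)).trans h
  calc ∑ a ∈ F, (f a ^ 2) ^ 2 ≤ ∑ a ∈ F, σ ^ 2 * f a ^ 2 := Finset.sum_le_sum fun a _ => by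
        rw [sq (f a ^ 2)]; exact mul_le_mul_of_nonneg_right (h1 a) (sq_nonneg _)
    _ = σ ^ 2 * ∑ a ∈ F, f a ^ 2 := by rw [Finset.mul_sum]
    _ ≤ σ ^ 2 * σ ^ 2 := mul_le_mul_of_nonneg_left
        ((sumF_le_univ F fun _ => sq_nonneg _).trans h) (sq_nonneg _)
    _ = (σ ^ 2) ^ 2 := by ring

namespace Bds

variable (hb : Bds F Z t σ v ν b)
include hb

theorem SF : ∑ a ∈ F, Z a a ^ 2 ≤ σ ^ 2 := (sumF_le_univ F fun _ => sq_nonneg _).trans hb.S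

theorem VF : ∑ a ∈ F, (Z ^ 2) a a ^ 2 ≤ v ^ 2 := (sumF_le_univ F fun _ => sq_nonneg _).trans hb.V

theorem NF : (F.card : ℝ) ≤ ν ^ 2 := hb.N.le

/-- `Σ |Z_aa| ≤ σ ν` -/
theorem absS : ∑ a ∈ F, |Z a a| ≤ σ * ν := sumF_abs_le F _ hb.σ0 hb.ν0 hb.SF hb.NF

theorem frob1 (hZ : Z.IsSymm) : Mat.frob Z ≤ t ^ 2 := by
  rw [Mat.frob_eq_trace_sq hZ]; exact hb.T

theorem frob2 (hZ : Z.IsSymm) : Mat.frob (Z ^ 2) ≤ (b * t) ^ 2 := by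
  have := hb.op.frob_pow_le 1 1
  rw [show (1 + 1 : ℕ) = 2 from rfl, pow_one] at this
  rw [mul_pow]
  exact this.trans (mul_le_mul_of_nonneg_left (hb.frob1 hZ) (by have := hb.b0; positivity))

theorem frob3 (hZ : Z.IsSymm) : Mat.frob (Z ^ 3) ≤ (b ^ 2 * t) ^ 2 := by
  have := hb.op.frob_pow_le 2 1
  rw [show (2 + 1 : ℕ) = 3 from rfl, pow_one] at this
  rw [mul_pow, ← pow_mul]
  exact this.trans (mul_le_mul_of_nonneg_left (hb.frob1 hZ) (by have := hb.b0; positivity))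

/-- `Σ w_a ≤ t²` -/
theorem sumw (h : ZBase F Z) : ∑ a ∈ F, (Z ^ 2) a a ≤ t ^ 2 := by
  rw [h.trace_F 1]; exact hb.T

/-- `Σ |(Z³)_aa| ≤ b t²` -/
theorem sumA3 (h : ZBase F Z) : ∑ a ∈ F, |(Z ^ 3) a a| ≤ b * t ^ 2 := by
  calc ∑ a ∈ F, |(Z ^ 3) a a| ≤ ∑ a ∈ F, b * (Z ^ 2) a a := Finset.sum_le_sum fun a _ => by
        have := Mat.OpB.pow_diag_le h.symm hb.b0 hb.op 1 a
        rwa [pow_one] at this
    _ = b * ∑ a ∈ F, (Z ^ 2) a a := by rw [Finset.mul_sum]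
    _ ≤ b * t ^ 2 := mul_le_mul_of_nonneg_left (hb.sumw h) hb.b0

end Bds

/-- the error of `T2_drift` -/
noncomputable def errT (t σ v ν b G m : ℝ) : ℝ :=
  16 * (t * v * ν) + 28 * (σ ^ 2 * v * ν) + 16 / 5 * t ^ 4 + 34 * (b ^ 2 * t ^ 2) +
    8 * (σ ^ 2 * b ^ 2 * t) + 16 / 5 * t ^ 2 + 34 * (t * σ ^ 2 * ν) + 34 * (σ ^ 4 * ν) +
    22 * (v ^ 2 * σ ^ 2) + 24 * (b * t * σ * ν) + 12 * (t ^ 2 * σ ^ 2) +
    32 / 5 * (ν * σ * b * t ^ 2) + 4 * (G * t ^ 2) + 4 * (m * b ^ 2 * t)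

theorem sumA_lin_T2 (hB : ZBase F Z) (hb : Bds F Z t σ v ν b) (hA : AdmOK F Z A G m L) :
    ∑ p ∈ A, (-2 * ((Z ^ 2) p.1 p.1 + (Z ^ 2) p.2 p.2) + 4 * (Z ^ 3) p.1 p.2) ≤
      -4 * ν ^ 2 * ((Z ^ 2).trace - 1) + 4 * (G * t ^ 2) + 4 * (m * b ^ 2 * t) := by
  have hw0 := fun a => sq_diag_nonneg hB.symm a
  set l : ι × ι → ℝ := fun p => -2 * ((Z ^ 2) p.1 p.1 + (Z ^ 2) p.2 p.2) + 4 * (Z ^ 3) p.1 p.2
    with hl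
  have e1 : ∑ p ∈ A, l p = ∑ p ∈ F ×ˢ F, l p - ∑ p ∈ (F ×ˢ F) \ A, l p := by
    rw [← Finset.sum_sdiff hA.sub]; ring
  have e2 : ∑ p ∈ F ×ˢ F, l p = -4 * ν ^ 2 * (Z ^ 2).trace + 4 * ν ^ 2 := by
    rw [hl]
    simp only [Finset.sum_add_distrib, ← Finset.mul_sum]
    rw [hB.sum_pairs_pow 2, Finset.sum_product, Finset.sum_product]
    simp only [Finset.sum_const, nsmul_eq_mul, ← Finset.mul_sum]
    rw [hB.trace_F 1, hb.N]; ring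
  have e3 : -∑ p ∈ (F ×ˢ F) \ A, l p ≤
      2 * (∑ p ∈ (F ×ˢ F) \ A, (Z ^ 2) p.1 p.1) + 2 * (∑ p ∈ (F ×ˢ F) \ A, (Z ^ 2) p.2 p.2) +
        4 * ∑ p ∈ (F ×ˢ F) \ A, |(Z ^ 3) p.1 p.2| := by
    rw [hl, ← Finset.sum_neg_distrib, Finset.mul_sum, Finset.mul_sum, Finset.mul_sum,
      ← Finset.sum_add_distrib, ← Finset.sum_add_distrib]
    refine Finset.sum_le_sum fun p _ => ?_
    have := neg_le_abs ((Z ^ 3) p.1 p.2)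
    linarith
  have hE : (F ×ˢ F) \ A ⊆ F ×ˢ F := Finset.sdiff_subset
  have e4 := sumE_fst_le hE hA.rows hw0
  have e5 := sumE_snd_le hE hA.cols hw0
  have e6 := sumE_abs_le hE hA.m0 (mul_nonneg (sq_nonneg b) hb.t0) hA.card
    (fun p => (Z ^ 3) p.1 p.2) (arr_mat F _ (hb.frob3 hB.symm))
  have e7 : G * ∑ a ∈ F, (Z ^ 2) a a ≤ G * t ^ 2 := mul_le_mul_of_nonneg_left (hb.sumw hB) hA.G0
  rw [e1, e2]
  have e8 : m * (b ^ 2 * t) = m * b ^ 2 * t := by ring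
  linarith

theorem sumA_sq_T2 (hb : Bds F Z t σ v ν b) (hA : AdmOK F Z A G m L) :
    ∑ p ∈ A, (Z p.1 p.1 ^ 2 + Z p.2 p.2 ^ 2) ≤ 2 * ν ^ 2 * ∑ a, Z a a ^ 2 := by
  have h1 : ∑ p ∈ A, (Z p.1 p.1 ^ 2 + Z p.2 p.2 ^ 2) ≤
      ∑ p ∈ F ×ˢ F, (Z p.1 p.1 ^ 2 + Z p.2 p.2 ^ 2) :=
    Finset.sum_le_sum_of_subset_of_nonneg hA.sub fun p _ _ => by positivity
  refine h1.trans ?_
  rw [Finset.sum_add_distrib, Finset.sum_product, Finset.sum_product]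
  simp only [Finset.sum_const, nsmul_eq_mul, ← Finset.mul_sum]
  rw [hb.N]
  have := mul_le_mul_of_nonneg_left (sumF_le_univ F fun a => sq_nonneg (Z a a)) (sq_nonneg ν)
  linarith

theorem sumA_RT2 (hB : ZBase F Z) (hb : Bds F Z t σ v ν b) (hA : AdmOK F Z A G m L) :
    ∑ p ∈ A, RT2 Z p.1 p.2 ≤
      16 * (t * v * ν) + 28 * (σ ^ 2 * v * ν) + 16 / 5 * t ^ 4 + 34 * (b ^ 2 * t ^ 2) +
    8 * (σ ^ 2 * b ^ 2 * t) + 16 / 5 * t ^ 2 + 34 * (t * σ ^ 2 * ν) + 34 * (σ ^ 4 * ν) +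
    22 * (v ^ 2 * σ ^ 2) + 24 * (b * t * σ * ν) + 12 * (t ^ 2 * σ ^ 2) +
    32 / 5 * (ν * σ * b * t ^ 2) := by
  have hw0 := fun a => sq_diag_nonneg hB.symm a
  have t0 := hb.t0
  have σ0 := hb.σ0
  have v0 := hb.v0
  have ν0 := hb.ν0
  have b0 := hb.b0
  have hS := hb.SF
  have hV := hb.VF
  have hN := hb.NF
  have hZa := arr_mat F Z (hb.frob1 hB.symm)
  have hZ2 := arr_mat F (Z ^ 2) (hb.frob2 hB.symm)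
  have hZ3 := arr_mat F (Z ^ 3) (hb.frob3 hB.symm)
  have hq4 := diag_pow4_le F (f := fun a => Z a a) hb.S
  -- the individual sums
  have a1 : ∑ p ∈ A, |Z p.1 p.2| * |(Z ^ 2) p.1 p.1| ≤ t * (v * ν) :=
    sumA_arr_le hA.sub (fun p => Z p.1 p.2) (fun p => (Z ^ 2) p.1 p.1) t0 (by positivity) hZa
      (arr_fst F (fun a => (Z ^ 2) a a) hV hN)
  have a1' : ∑ p ∈ A, |Z p.1 p.2| * |(Z ^ 2) p.2 p.2| ≤ t * (v * ν) :=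
    sumA_arr_le hA.sub (fun p => Z p.1 p.2) (fun p => (Z ^ 2) p.2 p.2) t0 (by positivity) hZa
      (arr_snd F (fun a => (Z ^ 2) a a) hV hN)
  have a2 : ∑ p ∈ A, (|Z p.1 p.1| * |(Z ^ 2) p.1 p.1|) * |Z p.2 p.2| ≤ (σ * v) * (σ * ν) :=
    sumA_mul_le hA.sub (f := fun a => |Z a a| * |(Z ^ 2) a a|) (g := fun a => |Z a a|)
      (fun a => by positivity) (fun a => abs_nonneg _)
      (sumF_mul_le F (fun a => Z a a) (fun a => (Z ^ 2) a a) σ0 v0 hS hV) hb.absS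
  have a2' : ∑ p ∈ A, |Z p.1 p.1| * (|Z p.2 p.2| * |(Z ^ 2) p.2 p.2|) ≤ (σ * ν) * (σ * v) :=
    sumA_mul_le hA.sub (f := fun a => |Z a a|) (g := fun a => |Z a a| * |(Z ^ 2) a a|)
      (fun a => abs_nonneg _) (fun a => by positivity) hb.absS
      (sumF_mul_le F (fun a => Z a a) (fun a => (Z ^ 2) a a) σ0 v0 hS hV)
  have a3 : ∑ p ∈ A, (Z ^ 2) p.1 p.1 * (Z ^ 2) p.2 p.2 ≤ t ^ 2 * t ^ 2 :=
    sumA_mul_le hA.sub (f := fun a => (Z ^ 2) a a) (g := fun a => (Z ^ 2) a a) hw0 hw0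
      (hb.sumw hB) (hb.sumw hB)
  have a4 : ∑ p ∈ A, |Z p.1 p.2| * |(Z ^ 3) p.1 p.2| ≤ t * (b ^ 2 * t) :=
    sumA_arr_le hA.sub (fun p => Z p.1 p.2) (fun p => (Z ^ 3) p.1 p.2) t0 (by positivity) hZa hZ3
  have a5 : ∑ p ∈ A, |Z p.1 p.1 * Z p.2 p.2| * |(Z ^ 3) p.1 p.2| ≤ (σ * σ) * (b ^ 2 * t) :=
    sumA_arr_le hA.sub (fun p => Z p.1 p.1 * Z p.2 p.2) (fun p => (Z ^ 3) p.1 p.2)
      (by positivity) (by positivity) (arr_mul F (fun a => Z a a) (fun a => Z a a) hS hS) hZ3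
  have a6 : ∑ p ∈ A, |Z p.1 p.2| * |Z p.1 p.2| ≤ t * t :=
    sumA_arr_le hA.sub (fun p => Z p.1 p.2) (fun p => Z p.1 p.2) t0 t0 hZa hZa
  have a7 : ∑ p ∈ A, |Z p.1 p.2| * |Z p.1 p.1 ^ 2| ≤ t * (σ ^ 2 * ν) :=
    sumA_arr_le hA.sub (fun p => Z p.1 p.2) (fun p => Z p.1 p.1 ^ 2) t0 (by positivity) hZa
      (arr_fst F (fun a => Z a a ^ 2) hq4 hN)
  have a7' : ∑ p ∈ A, |Z p.1 p.2| * |Z p.2 p.2 ^ 2| ≤ t * (σ ^ 2 * ν) :=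
    sumA_arr_le hA.sub (fun p => Z p.1 p.2) (fun p => Z p.2 p.2 ^ 2) t0 (by positivity) hZa
      (arr_snd F (fun a => Z a a ^ 2) hq4 hN)
  have hp3 := sumF_mul_le F (fun a => Z a a) (fun a => Z a a ^ 2) σ0 (sq_nonneg σ) hS hq4
  have a8 : ∑ p ∈ A, (|Z p.1 p.1| * |Z p.1 p.1 ^ 2|) * |Z p.2 p.2| ≤ (σ * σ ^ 2) * (σ * ν) :=
    sumA_mul_le hA.sub (f := fun a => |Z a a| * |Z a a ^ 2|) (g := fun a => |Z a a|)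
      (fun a => by positivity) (fun a => abs_nonneg _) hp3 hb.absS
  have a8' : ∑ p ∈ A, |Z p.1 p.1| * (|Z p.2 p.2| * |Z p.2 p.2 ^ 2|) ≤ (σ * ν) * (σ * σ ^ 2) :=
    sumA_mul_le hA.sub (f := fun a => |Z a a|) (g := fun a => |Z a a| * |Z a a ^ 2|)
      (fun a => abs_nonneg _) (fun a => by positivity) hb.absS hp3
  have a9 : ∑ p ∈ A, |(Z ^ 2) p.1 p.2| * |(Z ^ 2) p.1 p.2| ≤ (b * t) * (b * t) :=
    sumA_arr_le hA.sub (fun p => (Z ^ 2) p.1 p.2) (fun p => (Z ^ 2) p.1 p.2) (by positivity)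
      (by positivity) hZ2 hZ2
  have a10 : ∑ p ∈ A, (Z ^ 2) p.1 p.1 ^ 2 * Z p.2 p.2 ^ 2 ≤ v ^ 2 * σ ^ 2 :=
    sumA_mul_le hA.sub (f := fun a => (Z ^ 2) a a ^ 2) (g := fun a => Z a a ^ 2)
      (fun _ => sq_nonneg _) (fun _ => sq_nonneg _) hV hS
  have a10' : ∑ p ∈ A, Z p.1 p.1 ^ 2 * (Z ^ 2) p.2 p.2 ^ 2 ≤ σ ^ 2 * v ^ 2 :=
    sumA_mul_le hA.sub (f := fun a => Z a a ^ 2) (g := fun a => (Z ^ 2) a a ^ 2)
      (fun _ => sq_nonneg _) (fun _ => sq_nonneg _) hS hV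
  have a11 : ∑ p ∈ A, |(Z ^ 2) p.1 p.2| * |Z p.1 p.1| ≤ (b * t) * (σ * ν) :=
    sumA_arr_le hA.sub (fun p => (Z ^ 2) p.1 p.2) (fun p => Z p.1 p.1) (by positivity)
      (by positivity) hZ2 (arr_fst F (fun a => Z a a) hS hN)
  have a11' : ∑ p ∈ A, |(Z ^ 2) p.1 p.2| * |Z p.2 p.2| ≤ (b * t) * (σ * ν) :=
    sumA_arr_le hA.sub (fun p => (Z ^ 2) p.1 p.2) (fun p => Z p.2 p.2) (by positivity)
      (by positivity) hZ2 (arr_snd F (fun a => Z a a) hS hN)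
  have a12 : ∑ p ∈ A, (Z ^ 2) p.1 p.1 * Z p.2 p.2 ^ 2 ≤ t ^ 2 * σ ^ 2 :=
    sumA_mul_le hA.sub (f := fun a => (Z ^ 2) a a) (g := fun a => Z a a ^ 2)
      hw0 (fun _ => sq_nonneg _) (hb.sumw hB) hS
  have a12' : ∑ p ∈ A, Z p.1 p.1 ^ 2 * (Z ^ 2) p.2 p.2 ≤ σ ^ 2 * t ^ 2 :=
    sumA_mul_le hA.sub (f := fun a => Z a a ^ 2) (g := fun a => (Z ^ 2) a a)
      (fun _ => sq_nonneg _) hw0 hS (hb.sumw hB)
  have a13 : ∑ p ∈ A, |(Z ^ 3) p.1 p.1| * |Z p.2 p.2| ≤ (b * t ^ 2) * (σ * ν) :=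
    sumA_mul_le hA.sub (f := fun a => |(Z ^ 3) a a|) (g := fun a => |Z a a|)
      (fun _ => abs_nonneg _) (fun _ => abs_nonneg _) (hb.sumA3 hB) hb.absS
  have a13' : ∑ p ∈ A, |Z p.1 p.1| * |(Z ^ 3) p.2 p.2| ≤ (σ * ν) * (b * t ^ 2) :=
    sumA_mul_le hA.sub (f := fun a => |Z a a|) (g := fun a => |(Z ^ 3) a a|)
      (fun _ => abs_nonneg _) (fun _ => abs_nonneg _) hb.absS (hb.sumA3 hB)
  have key : ∀ p : ι × ι, RT2 Z p.1 p.2 =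
      8 * (|Z p.1 p.2| * |(Z ^ 2) p.1 p.1|) + 8 * (|Z p.1 p.2| * |(Z ^ 2) p.2 p.2|) +
      14 * ((|Z p.1 p.1| * |(Z ^ 2) p.1 p.1|) * |Z p.2 p.2|) +
      14 * (|Z p.1 p.1| * (|Z p.2 p.2| * |(Z ^ 2) p.2 p.2|)) +
      16 / 5 * ((Z ^ 2) p.1 p.1 * (Z ^ 2) p.2 p.2) +
      8 * (|Z p.1 p.2| * |(Z ^ 3) p.1 p.2|) +
      8 * (|Z p.1 p.1 * Z p.2 p.2| * |(Z ^ 3) p.1 p.2|) +
      16 / 5 * (|Z p.1 p.2| * |Z p.1 p.2|) +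
      17 * (|Z p.1 p.2| * |Z p.1 p.1 ^ 2|) + 17 * (|Z p.1 p.2| * |Z p.2 p.2 ^ 2|) +
      17 * ((|Z p.1 p.1| * |Z p.1 p.1 ^ 2|) * |Z p.2 p.2|) +
      17 * (|Z p.1 p.1| * (|Z p.2 p.2| * |Z p.2 p.2 ^ 2|)) +
      26 * (|(Z ^ 2) p.1 p.2| * |(Z ^ 2) p.1 p.2|) +
      11 * ((Z ^ 2) p.1 p.1 ^ 2 * Z p.2 p.2 ^ 2) + 11 * (Z p.1 p.1 ^ 2 * (Z ^ 2) p.2 p.2 ^ 2) +
      12 * (|(Z ^ 2) p.1 p.2| * |Z p.1 p.1|) + 12 * (|(Z ^ 2) p.1 p.2| * |Z p.2 p.2|) +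
      6 * ((Z ^ 2) p.1 p.1 * Z p.2 p.2 ^ 2) + 6 * (Z p.1 p.1 ^ 2 * (Z ^ 2) p.2 p.2) +
      16 / 5 * (|(Z ^ 3) p.1 p.1| * |Z p.2 p.2|) + 16 / 5 * (|Z p.1 p.1| * |(Z ^ 3) p.2 p.2|) := by
    intro p
    have q1 := hw0 p.1
    have q2 := hw0 p.2
    have q3 : Z p.1 p.2 ^ 2 = |Z p.1 p.2| * |Z p.1 p.2| := by rw [abs_mul_abs_self, sq]
    have q4 : (Z ^ 2) p.1 p.2 ^ 2 = |(Z ^ 2) p.1 p.2| * |(Z ^ 2) p.1 p.2| := by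
      rw [abs_mul_abs_self, sq]
    have q5 : Z p.1 p.1 ^ 2 = |Z p.1 p.1| * |Z p.1 p.1| := by rw [abs_mul_abs_self, sq]
    have q6 : Z p.2 p.2 ^ 2 = |Z p.2 p.2| * |Z p.2 p.2| := by rw [abs_mul_abs_self, sq]
    unfold RT2 eA
    rw [abs_mul (Z p.1 p.1), abs_of_nonneg q1, abs_of_nonneg q2, q3, q4, abs_of_nonneg
      (sq_nonneg (Z p.1 p.1)), abs_of_nonneg (sq_nonneg (Z p.2 p.2)), q5, q6]
    ring
  simp only [key, Finset.sum_add_distrib, ← Finset.mul_sum]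
  have r1 : t * (v * ν) = t * v * ν := by ring
  have r2 : (σ * v) * (σ * ν) = σ ^ 2 * v * ν := by ring
  have r2' : (σ * ν) * (σ * v) = σ ^ 2 * v * ν := by ring
  have r3 : t ^ 2 * t ^ 2 = t ^ 4 := by ring
  have r4 : t * (b ^ 2 * t) = b ^ 2 * t ^ 2 := by ring
  have r5 : (σ * σ) * (b ^ 2 * t) = σ ^ 2 * b ^ 2 * t := by ring
  have r6 : t * t = t ^ 2 := by ring
  have r7 : t * (σ ^ 2 * ν) = t * σ ^ 2 * ν := by ring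
  have r8 : (σ * σ ^ 2) * (σ * ν) = σ ^ 4 * ν := by ring
  have r8' : (σ * ν) * (σ * σ ^ 2) = σ ^ 4 * ν := by ring
  have r9 : (b * t) * (b * t) = b ^ 2 * t ^ 2 := by ring
  have r10 : σ ^ 2 * v ^ 2 = v ^ 2 * σ ^ 2 := by ring
  have r11 : (b * t) * (σ * ν) = b * t * σ * ν := by ring
  have r12 : σ ^ 2 * t ^ 2 = t ^ 2 * σ ^ 2 := by ring
  have r13 : (b * t ^ 2) * (σ * ν) = ν * σ * b * t ^ 2 := by ring
  have r13' : (σ * ν) * (b * t ^ 2) = ν * σ * b * t ^ 2 := by ring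
  rw [r1] at a1 a1'
  rw [r2] at a2
  rw [r2'] at a2'
  rw [r3] at a3
  rw [r4] at a4
  rw [r5] at a5
  rw [r6] at a6
  rw [r7] at a7 a7'
  rw [r8] at a8
  rw [r8'] at a8'
  rw [r9] at a9
  rw [r10] at a10'
  rw [r11] at a11 a11'
  rw [r12] at a12'
  rw [r13] at a13
  rw [r13'] at a13'
  linarith

/-- the drift of `tr Z²` -/
theorem T2_drift (hB : ZBase F Z) (hb : Bds F Z t σ v ν b) (hA : AdmOK F Z A G m L) :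
    ∑ p ∈ A, ((upd Z p.1 p.2 ^ 2).trace - (Z ^ 2).trace) ≤
      -4 * ν ^ 2 * ((Z ^ 2).trace - 1) + 2 * ν ^ 2 * (∑ a, Z a a ^ 2) + errT t σ v ν b G m := by
  have h1 : ∑ p ∈ A, ((upd Z p.1 p.2 ^ 2).trace - (Z ^ 2).trace) ≤
      ∑ p ∈ A, (((-2 * ((Z ^ 2) p.1 p.1 + (Z ^ 2) p.2 p.2) + 4 * (Z ^ 3) p.1 p.2) +
        (Z p.1 p.1 ^ 2 + Z p.2 p.2 ^ 2)) + RT2 Z p.1 p.2) :=
    Finset.sum_le_sum fun p hp => T2_pt (hA.ok p hp).1 hB.symm (hA.ok p hp).2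
  rw [Finset.sum_add_distrib, Finset.sum_add_distrib] at h1
  have h2 := sumA_lin_T2 hB hb hA
  have h3 := sumA_sq_T2 hb hA
  have h4 := sumA_RT2 hB hb hA
  unfold errT
  linarith

end Vale.Agent.P049.TS
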