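import Vale.Agent.P049.TS.Final.PtBound
import Vale.Agent.P049.TS.Mat.Basic

/-!
Base facts for a symmetric matrix supported on `F` with all row sums equal to one, and tools for
sums over sets of pairs.
-/

set_option linter.unusedSectionVars false

namespace Vale.Agent.P049.TS

open Matrix Finset

variable {ι : Type*} [Fintype ι] [DecidableEq ι]

/-- `Z` is symmetric, supported on `F × F`, and its rows indexed by `F` have sum one -/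
structure ZBase (F : Finset ι) (Z : Matrix ι ι ℝ) : Prop where
  symm : Z.IsSymm
  supp : ∀ i j, i ∉ F → Z i j = 0
  row : ∀ i ∈ F, ∑ j, Z i j = 1

variable {F : Finset ι} {Z : Matrix ι ι ℝ}

namespace ZBase

theorem supp' (h : ZBase F Z) (i j : ι) (hj : j ∉ F) : Z i j = 0 := by
  rw [← h.symm.apply]; exact h.supp j i hj

theorem pow_supp (h : ZBase F Z) (k : ℕ) (i j : ι) (hi : i ∉ F) : (Z ^ (k + 1)) i j = 0 := by
  rw [pow_succ', Matrix.mul_apply]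
  exact Finset.sum_eq_zero fun x _ => by rw [h.supp i x hi, zero_mul]

theorem pow_supp' (h : ZBase F Z) (k : ℕ) (i j : ι) (hj : j ∉ F) : (Z ^ (k + 1)) i j = 0 := by
  rw [← (symm_pow h.symm (k + 1)).apply]; exact h.pow_supp k j i hj

theorem pow_row (h : ZBase F Z) (k : ℕ) : ∀ i ∈ F, ∑ j, (Z ^ (k + 1)) i j = 1 := by
  induction k with
  | zero => intro i hi; simpa using h.row i hi
  | succ k ih =>
    intro i hi
    rw [pow_succ' Z (k + 1)]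
    simp only [Matrix.mul_apply]
    rw [Finset.sum_comm]
    have : ∀ x, ∑ j, Z i x * (Z ^ (k + 1)) x j = Z i x := by
      intro x
      rw [← Finset.mul_sum]
      by_cases hx : x ∈ F
      · rw [ih x hx, mul_one]
      · rw [h.supp' i x hx, zero_mul]
    simp only [this]
    exact h.row i hi

theorem sum_F_eq (h : ZBase F Z) (k : ℕ) (f : ι → ℝ) :
    ∑ a ∈ F, (Z ^ (k + 1)) a a * f a = ∑ a, (Z ^ (k + 1)) a a * f a := by
  refine Finset.sum_subset (Finset.subset_univ F) fun x _ hx => ?_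
  rw [h.pow_supp k x x hx, zero_mul]

theorem trace_F (h : ZBase F Z) (k : ℕ) : ∑ a ∈ F, (Z ^ (k + 1)) a a = (Z ^ (k + 1)).trace := by
  have := h.sum_F_eq k (fun _ => 1)
  simpa [Matrix.trace] using this

theorem row_F (h : ZBase F Z) (k : ℕ) {a : ι} (ha : a ∈ F) :
    ∑ b ∈ F, (Z ^ (k + 1)) a b = 1 := by
  rw [← h.pow_row k a ha]
  exact Finset.sum_subset (Finset.subset_univ F) fun x _ hx => h.pow_supp' k a x hx

/-- the full sum of the entries of `Z^(k+1)` -/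
theorem sum_pairs_pow (h : ZBase F Z) (k : ℕ) :
    ∑ p ∈ F ×ˢ F, (Z ^ (k + 1)) p.1 p.2 = F.card := by
  rw [Finset.sum_product, Finset.sum_congr rfl fun a ha => h.row_F k ha]
  simp

end ZBase

/-! ### Tools for sums over pairs -/

theorem sumA_mul_le {A : Finset (ι × ι)} (hA : A ⊆ F ×ˢ F) {f g : ι → ℝ} (hf : ∀ a, 0 ≤ f a)
    (hg : ∀ a, 0 ≤ g a) {x y : ℝ} (hx : ∑ a ∈ F, f a ≤ x) (hy : ∑ a ∈ F, g a ≤ y) :
    ∑ p ∈ A, f p.1 * g p.2 ≤ x * y := by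
  have h1 : ∑ p ∈ A, f p.1 * g p.2 ≤ ∑ p ∈ F ×ˢ F, f p.1 * g p.2 :=
    Finset.sum_le_sum_of_subset_of_nonneg hA fun p _ _ => mul_nonneg (hf _) (hg _)
  rw [sum_pairs_mul] at h1
  exact h1.trans (mul_le_mul hx hy (Finset.sum_nonneg fun _ _ => hg _)
    ((Finset.sum_nonneg fun _ _ => hf _).trans hx))

theorem sqrt_le_of_le_sq {x y : ℝ} (h : x ≤ y ^ 2) (hy : 0 ≤ y) : √x ≤ y :=
  (Real.sqrt_le_sqrt h).trans (Real.sqrt_sq hy).le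

/-- Cauchy-Schwarz over pairs for two arrays with known `ℓ²` norms -/
theorem sumA_arr_le {A : Finset (ι × ι)} (hA : A ⊆ F ×ˢ F) (M K : ι × ι → ℝ) {x y : ℝ}
    (hx : 0 ≤ x) (hy : 0 ≤ y)
    (hM : ∑ p ∈ F ×ˢ F, M p ^ 2 ≤ x ^ 2) (hK : ∑ p ∈ F ×ˢ F, K p ^ 2 ≤ y ^ 2) :
    ∑ p ∈ A, |M p| * |K p| ≤ x * y := by
  refine (sum_abs_mul_le A M K).trans (mul_le_mul (sqrt_le_of_le_sq ?_ hx)
    (sqrt_le_of_le_sq ?_ hy) (Real.sqrt_nonneg _) hx)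
  · exact (Finset.sum_le_sum_of_subset_of_nonneg hA fun _ _ _ => sq_nonneg _).trans hM
  · exact (Finset.sum_le_sum_of_subset_of_nonneg hA fun _ _ _ => sq_nonneg _).trans hK

theorem sumF_mul_le (F : Finset ι) (f g : ι → ℝ) {x y : ℝ} (hx : 0 ≤ x) (hy : 0 ≤ y)
    (hf : ∑ a ∈ F, f a ^ 2 ≤ x ^ 2) (hg : ∑ a ∈ F, g a ^ 2 ≤ y ^ 2) :
    ∑ a ∈ F, |f a| * |g a| ≤ x * y := by
  refine (sum_abs_mul_le F f g).trans (mul_le_mul (sqrt_le_of_le_sq hf hx)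
    (sqrt_le_of_le_sq hg hy) (Real.sqrt_nonneg _) hx)

theorem sumF_abs_le (F : Finset ι) (f : ι → ℝ) {x ν : ℝ} (hx : 0 ≤ x) (hν : 0 ≤ ν)
    (hf : ∑ a ∈ F, f a ^ 2 ≤ x ^ 2) (hN : (F.card : ℝ) ≤ ν ^ 2) :
    ∑ a ∈ F, |f a| ≤ x * ν := by
  have := sumF_mul_le F f (fun _ => 1) hx hν hf (by simpa using hN)
  simpa using this

theorem arr_fst (F : Finset ι) (f : ι → ℝ) {x ν : ℝ}
    (hf : ∑ a ∈ F, f a ^ 2 ≤ x ^ 2) (hN : (F.card : ℝ) ≤ ν ^ 2) :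
    ∑ p ∈ F ×ˢ F, f p.1 ^ 2 ≤ (x * ν) ^ 2 := by
  rw [Finset.sum_product]
  simp only [Finset.sum_const, nsmul_eq_mul]
  rw [← Finset.mul_sum, mul_pow, mul_comm]
  exact mul_le_mul hf hN (Nat.cast_nonneg _) (sq_nonneg _)

theorem arr_snd (F : Finset ι) (f : ι → ℝ) {x ν : ℝ}
    (hf : ∑ a ∈ F, f a ^ 2 ≤ x ^ 2) (hN : (F.card : ℝ) ≤ ν ^ 2) :
    ∑ p ∈ F ×ˢ F, f p.2 ^ 2 ≤ (x * ν) ^ 2 := by
  rw [Finset.sum_product_right]
  simp only [Finset.sum_const, nsmul_eq_mul]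
  rw [← Finset.mul_sum, mul_pow, mul_comm]
  exact mul_le_mul hf hN (Nat.cast_nonneg _) (sq_nonneg _)

theorem arr_mul (F : Finset ι) (f g : ι → ℝ) {x y : ℝ}
    (hf : ∑ a ∈ F, f a ^ 2 ≤ x ^ 2) (hg : ∑ a ∈ F, g a ^ 2 ≤ y ^ 2) :
    ∑ p ∈ F ×ˢ F, (f p.1 * g p.2) ^ 2 ≤ (x * y) ^ 2 := by
  rw [sum_pairs_sq_mul, mul_pow]
  exact mul_le_mul hf hg (Finset.sum_nonneg fun _ _ => sq_nonneg _) (sq_nonneg _)

theorem arr_mat (F : Finset ι) (M : Matrix ι ι ℝ) {x : ℝ} (h : Mat.frob M ≤ x ^ 2) :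
    ∑ p ∈ F ×ˢ F, M p.1 p.2 ^ 2 ≤ x ^ 2 := by
  rw [Finset.sum_product]
  unfold Mat.frob at h
  refine le_trans ((Finset.sum_le_sum fun a _ => ?_).trans
    (Finset.sum_le_sum_of_subset_of_nonneg (Finset.subset_univ F) fun a _ _ =>
      Finset.sum_nonneg fun _ _ => sq_nonneg _)) h
  exact Finset.sum_le_sum_of_subset_of_nonneg (Finset.subset_univ F) fun _ _ _ => sq_nonneg _

/-- sum of a function of the first index over a set with bounded row degrees -/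
theorem sumE_fst_le {E : Finset (ι × ι)} (hE : E ⊆ F ×ˢ F) {G : ℝ}
    (hG : ∀ a ∈ F, (((E.filter fun p => p.1 = a).card : ℕ) : ℝ) ≤ G) {f : ι → ℝ}
    (hf : ∀ a, 0 ≤ f a) : ∑ p ∈ E, f p.1 ≤ G * ∑ a ∈ F, f a := by
  have hm : ∀ p ∈ E, p.1 ∈ F := fun p hp => (Finset.mem_product.1 (hE hp)).1
  rw [← Finset.sum_fiberwise_of_maps_to hm, Finset.mul_sum]
  refine Finset.sum_le_sum fun a ha => ?_
  rw [Finset.sum_congr rfl (fun p hp => by rw [(Finset.mem_filter.1 hp).2] :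
    ∀ p ∈ E.filter (fun p => p.1 = a), f p.1 = f a), Finset.sum_const, nsmul_eq_mul]
  exact mul_le_mul_of_nonneg_right (hG a ha) (hf a)

theorem sumE_snd_le {E : Finset (ι × ι)} (hE : E ⊆ F ×ˢ F) {G : ℝ}
    (hG : ∀ a ∈ F, (((E.filter fun p => p.2 = a).card : ℕ) : ℝ) ≤ G) {f : ι → ℝ}
    (hf : ∀ a, 0 ≤ f a) : ∑ p ∈ E, f p.2 ≤ G * ∑ a ∈ F, f a := by
  have hm : ∀ p ∈ E, p.2 ∈ F := fun p hp => (Finset.mem_product.1 (hE hp)).2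
  rw [← Finset.sum_fiberwise_of_maps_to hm, Finset.mul_sum]
  refine Finset.sum_le_sum fun a ha => ?_
  rw [Finset.sum_congr rfl (fun p hp => by rw [(Finset.mem_filter.1 hp).2] :
    ∀ p ∈ E.filter (fun p => p.2 = a), f p.2 = f a), Finset.sum_const, nsmul_eq_mul]
  exact mul_le_mul_of_nonneg_right (hG a ha) (hf a)

/-- the `ℓ¹` norm over a sparse set -/
theorem sumE_abs_le {E : Finset (ι × ι)} (hE : E ⊆ F ×ˢ F) {m x : ℝ} (hm0 : 0 ≤ m) (hx : 0 ≤ x)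
    (hm : ((E.card : ℕ) : ℝ) ≤ m ^ 2) (M : ι × ι → ℝ) (hM : ∑ p ∈ F ×ˢ F, M p ^ 2 ≤ x ^ 2) :
    ∑ p ∈ E, |M p| ≤ m * x := by
  refine (sum_abs_le_sqrt_card E M).trans (mul_le_mul (sqrt_le_of_le_sq hm hm0)
    (sqrt_le_of_le_sq ?_ hx) (Real.sqrt_nonneg _) hm0)
  exact (Finset.sum_le_sum_of_subset_of_nonneg hE fun _ _ _ => sq_nonneg _).trans hM

/-- data for one drift estimate: the admissible set and its sparse complement. `G` bounds the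
degrees of the complement, `m²` its size and `L` its norm as a bilinear form. -/
structure AdmOK (F : Finset ι) (Z : Matrix ι ι ℝ) (A : Finset (ι × ι)) (G m L : ℝ) : Prop where
  sub : A ⊆ F ×ˢ F
  ok : ∀ p ∈ A, p.1 ≠ p.2 ∧ PairOK Z p.1 p.2
  G0 : 0 ≤ G
  m0 : 0 ≤ m
  L0 : 0 ≤ L
  rows : ∀ a ∈ F, ((((((F ×ˢ F) \ A)).filter fun p => p.1 = a).card : ℕ) : ℝ) ≤ G
  cols : ∀ a ∈ F, ((((((F ×ˢ F) \ A)).filter fun p => p.2 = a).card : ℕ) : ℝ) ≤ G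
  card : (((((F ×ˢ F) \ A)).card : ℕ) : ℝ) ≤ m ^ 2
  quad : ∀ (u w : ι → ℝ) (x y : ℝ), 0 ≤ x → 0 ≤ y → ∑ a, u a ^ 2 ≤ x ^ 2 → ∑ a, w a ^ 2 ≤ y ^ 2 →
    ∑ p ∈ (F ×ˢ F) \ A, |u p.1| * |w p.2| ≤ L * (x * y)

/-- numerical bounds for one matrix -/
structure Bds (F : Finset ι) (Z : Matrix ι ι ℝ) (t σ v ν b : ℝ) : Prop where
  t0 : 0 ≤ t
  σ0 : 0 ≤ σ
  v0 : 0 ≤ v
  ν0 : 0 ≤ ν
  b0 : 0 ≤ b
  T : (Z ^ 2).trace ≤ t ^ 2
  S : ∑ a, Z a a ^ 2 ≤ σ ^ 2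
  V : ∑ a, (Z ^ 2) a a ^ 2 ≤ v ^ 2
  N : (F.card : ℝ) = ν ^ 2
  op : Mat.OpB Z b

end Vale.Agent.P049.TS
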