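import Vale.Agent.P049.TS.Avg.Adm

/-!
Pointwise formulas for the final phase: exact increments of `tr Z²`, `Σ Z_cc²`, `Σ ((Z²)_cc)²`.
-/

set_option linter.unusedSectionVars false

namespace Vale.Agent.P049.TS

open Matrix Finset

variable {ι : Type*} [Fintype ι] [DecidableEq ι]
variable {Z : Matrix ι ι ℝ} {a b : ι}

/-- the trace of `O_{j+1}` -/
theorem Om_trace (X : Matrix ι ι ℝ) (j : ℕ) (hX : Z ^ j * (Z ^ 2 - 1) = X) (hs : X b a = X a b) :
    (Om Z a b j).trace = (al Z a b)⁻¹ * (Z b b * X a a + 2 * (1 - Z a b) * X a b +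
      Z a a * X b b) := by
  unfold Om Bm blk
  rw [hX, Matrix.smul_mul, Matrix.trace_smul, Matrix.mul_fin_two, Matrix.trace_fin_two_of, hs,
    smul_eq_mul]
  ring

/-- exact increment of `tr Z²` -/
theorem trace_upd_sq_explicit (hab : a ≠ b) (hZ : Z.IsSymm) (h : al Z a b ≠ 0) :
    (upd Z a b ^ 2).trace = (Z ^ 2).trace +
      (al Z a b)⁻¹ * (-2 * ((Z ^ 2) a a + (Z ^ 2) b b) + 2 * ((Z ^ 2) a a * (Z ^ 2) b b) +
        4 * (1 - Z a b) * (Z ^ 3) a b + 2 * Z a b ^ 2 - 2 * (Z ^ 2) a b ^ 2 -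
        2 * (Z a a * Z b b) + 2 * (Z b b * (Z ^ 3) a a) + 2 * (Z a a * (Z ^ 3) b b)) +
      ((al Z a b)⁻¹ * (2 * (1 - Z a b) * (Z ^ 2) a b - (Z a a + Z b b) +
        (Z ^ 2) a a * Z b b + (Z ^ 2) b b * Z a a)) ^ 2 := by
  have s1 : Z b a = Z a b := hZ.apply a b
  have s2 : (Z ^ 2) b a = (Z ^ 2) a b := (symm_pow hZ 2).apply a b
  have s3 : (Z ^ 3) b a = (Z ^ 3) a b := (symm_pow hZ 3).apply a b
  rw [trace_upd_sq_Om hab hZ h]
  have e0 : Z ^ 0 * (Z ^ 2 - 1) = Z ^ 2 - 1 := by rw [pow_zero, Matrix.one_mul]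
  have e1 : Z ^ 1 * (Z ^ 2 - 1) = Z ^ 3 - Z := by
    rw [pow_one, Matrix.mul_sub, Matrix.mul_one, ← pow_succ']
  have h1 : (Om Z a b 1).trace = (al Z a b)⁻¹ * (Z b b * ((Z ^ 3) a a - Z a a) +
      2 * (1 - Z a b) * ((Z ^ 3) a b - Z a b) + Z a a * ((Z ^ 3) b b - Z b b)) := by
    rw [Om_trace _ 1 e1 (by simp only [Matrix.sub_apply, s1, s3])]
    simp only [Matrix.sub_apply]
  have h2 : (Om Z a b 0 ^ 2).trace = (al Z a b)⁻¹ ^ 2 *
      ((Z b b * ((Z ^ 2) a a - 1) + (1 - Z a b) * (Z ^ 2) a b) ^ 2 +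
       ((1 - Z a b) * (Z ^ 2) a b + Z a a * ((Z ^ 2) b b - 1)) ^ 2 +
       2 * (Z b b * (Z ^ 2) a b + (1 - Z a b) * ((Z ^ 2) b b - 1)) *
        ((1 - Z a b) * ((Z ^ 2) a a - 1) + Z a a * (Z ^ 2) a b)) := by
    unfold Om Bm blk
    rw [e0, Matrix.smul_mul, sq, Matrix.smul_mul, Matrix.mul_smul, smul_smul, Matrix.trace_smul,
      Matrix.mul_fin_two, Matrix.mul_fin_two, Matrix.trace_fin_two_of, smul_eq_mul]
    simp only [Matrix.sub_apply, Matrix.one_apply_eq, Matrix.one_apply_ne hab,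
      Matrix.one_apply_ne hab.symm, sub_zero, s2]
    ring
  rw [h1, h2]
  have hal : al Z a b = (1 - Z a b) ^ 2 - Z a a * Z b b := rfl
  generalize al Z a b = α at *
  generalize Z a b = r at *
  generalize Z a a = p at *
  generalize Z b b = q at *
  generalize (Z ^ 2) a a = wa at *
  generalize (Z ^ 2) b b = wb at *
  generalize (Z ^ 2) a b = s at *
  generalize (Z ^ 3) a b = c at *
  generalize (Z ^ 3) a a = A at *
  generalize (Z ^ 3) b b = B at *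
  field_simp
  rw [hal]
  ring

end Vale.Agent.P049.TS
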