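import Vale.Agent.P049.TS.Final.Pt

/-!
Pointwise upper bound for the increment of `tr Z²`.
-/

set_option linter.unusedSectionVars false

namespace Vale.Agent.P049.TS

open Matrix Finset

theorem T2_sq_real1 {ai r p q wa wb s : ℝ} (h0 : 0 ≤ ai) (h1 : ai ≤ 8 / 5)
    (h4 : |ai * (1 - r)| ≤ 9 / 5) (hwa : 0 ≤ wa) (hwb : 0 ≤ wb) :
    (2 * (ai * (1 - r)) * s + ai * (wa * q + wb * p)) ^ 2 ≤
      26 * s ^ 2 + 11 * (wa ^ 2 * q ^ 2 + wb ^ 2 * p ^ 2) := by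
  have b1 : (2 * (ai * (1 - r)) * s) ^ 2 ≤ 324 / 25 * s ^ 2 := by
    have e : (ai * (1 - r)) ^ 2 ≤ (9 / 5) ^ 2 := by
      rw [← sq_abs]; exact pow_le_pow_left₀ (abs_nonneg _) h4 2
    have := mul_le_mul_of_nonneg_right e (sq_nonneg s)
    calc (2 * (ai * (1 - r)) * s) ^ 2 = 4 * ((ai * (1 - r)) ^ 2 * s ^ 2) := by ring
      _ ≤ 4 * ((9 / 5) ^ 2 * s ^ 2) := by linarith
      _ = 324 / 25 * s ^ 2 := by ring
  have b2 : (ai * (wa * q + wb * p)) ^ 2 ≤ 128 / 25 * (wa ^ 2 * q ^ 2 + wb ^ 2 * p ^ 2) := by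
    have e : ai ^ 2 ≤ (8 / 5) ^ 2 := pow_le_pow_left₀ h0 h1 2
    have e2 : (wa * q + wb * p) ^ 2 ≤ 2 * (wa ^ 2 * q ^ 2 + wb ^ 2 * p ^ 2) := by
      have := sq_nonneg (wa * q - wb * p)
      linarith [this, show (wa * q - wb * p) ^ 2 + (wa * q + wb * p) ^ 2 =
        2 * (wa ^ 2 * q ^ 2 + wb ^ 2 * p ^ 2) by ring]
    calc (ai * (wa * q + wb * p)) ^ 2 = ai ^ 2 * (wa * q + wb * p) ^ 2 := by ring
      _ ≤ (8 / 5) ^ 2 * (2 * (wa ^ 2 * q ^ 2 + wb ^ 2 * p ^ 2)) :=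
        mul_le_mul e e2 (sq_nonneg _) (by norm_num)
      _ = 128 / 25 * (wa ^ 2 * q ^ 2 + wb ^ 2 * p ^ 2) := by ring
  have b3 := sq_nonneg (2 * (ai * (1 - r)) * s - ai * (wa * q + wb * p))
  have b4 : (2 * (ai * (1 - r)) * s + ai * (wa * q + wb * p)) ^ 2 +
      (2 * (ai * (1 - r)) * s - ai * (wa * q + wb * p)) ^ 2 =
      2 * (2 * (ai * (1 - r)) * s) ^ 2 + 2 * (ai * (wa * q + wb * p)) ^ 2 := by ring
  have b5 := sq_nonneg s
  have b6 : 0 ≤ wa ^ 2 * q ^ 2 + wb ^ 2 * p ^ 2 := by positivity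
  linarith

theorem T2_sq_real2 {ai r p q wa wb s : ℝ} (h0 : 0 ≤ ai) (h1 : ai ≤ 8 / 5)
    (h4 : |ai * (1 - r)| ≤ 9 / 5) (hwa : 0 ≤ wa) (hwb : 0 ≤ wb) :
    -(2 * (2 * (ai * (1 - r)) * s + ai * (wa * q + wb * p)) * (ai * (p + q))) ≤
      12 * (|s| * (|p| + |q|)) + 6 * ((wa * |q| + wb * |p|) * (|p| + |q|)) := by
  have b1 : |2 * (ai * (1 - r)) * s| ≤ 18 / 5 * |s| := by
    rw [abs_mul, abs_mul, abs_two]
    have := mul_le_mul_of_nonneg_right h4 (abs_nonneg s)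
    linarith
  have b2 : |ai * (wa * q + wb * p)| ≤ 8 / 5 * (wa * |q| + wb * |p|) := by
    rw [abs_mul, abs_of_nonneg h0]
    have e1 : |wa * q + wb * p| ≤ wa * |q| + wb * |p| := by
      refine (abs_add_le _ _).trans ?_
      rw [abs_mul, abs_mul, abs_of_nonneg hwa, abs_of_nonneg hwb]
    exact mul_le_mul h1 e1 (abs_nonneg _) (by norm_num)
  have b3 : |ai * (p + q)| ≤ 8 / 5 * (|p| + |q|) := by
    rw [abs_mul, abs_of_nonneg h0]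
    exact mul_le_mul h1 (abs_add_le _ _) (abs_nonneg _) (by norm_num)
  have nb2 : 0 ≤ wa * |q| + wb * |p| := by positivity
  have nb3 : 0 ≤ |p| + |q| := by positivity
  have d2 : |2 * (ai * (1 - r)) * s + ai * (wa * q + wb * p)| * |ai * (p + q)| ≤
      (18 / 5 * |s| + 8 / 5 * (wa * |q| + wb * |p|)) * (8 / 5 * (|p| + |q|)) :=
    mul_le_mul ((abs_add_le _ _).trans (add_le_add b1 b2)) b3 (abs_nonneg _) (by positivity)
  have d1 : -(2 * (2 * (ai * (1 - r)) * s + ai * (wa * q + wb * p)) * (ai * (p + q))) ≤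
      2 * (|2 * (ai * (1 - r)) * s + ai * (wa * q + wb * p)| * |ai * (p + q)|) := by
    rw [← abs_mul]
    have := neg_le_abs ((2 * (ai * (1 - r)) * s + ai * (wa * q + wb * p)) * (ai * (p + q)))
    linarith
  have d3 : 0 ≤ |s| * (|p| + |q|) := by positivity
  have d4 : 0 ≤ (wa * |q| + wb * |p|) * (|p| + |q|) := by positivity
  have d5 : (18 / 5 * |s| + 8 / 5 * (wa * |q| + wb * |p|)) * (8 / 5 * (|p| + |q|)) =
      144 / 25 * (|s| * (|p| + |q|)) + 64 / 25 * ((wa * |q| + wb * |p|) * (|p| + |q|)) := by ring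
  linarith

theorem T2_sq_real3 {ai p q e : ℝ} (h0 : 0 ≤ ai) (h1 : ai ≤ 8 / 5)
    (he : 0 ≤ e) (h2 : |ai - 1| ≤ 4 * e) :
    ai ^ 2 * (p ^ 2 + q ^ 2) + 2 * (p * q) * (ai ^ 2 - ai) ≤
        (p ^ 2 + q ^ 2) + 17 * (e * (p ^ 2 + q ^ 2)) := by
  have h2' := abs_le.1 h2
  have n1 : 0 ≤ p ^ 2 + q ^ 2 := by positivity
  have d1 : ai ^ 2 - 1 ≤ 52 / 5 * e := by
    have : (ai - 1) * (ai + 1) ≤ 4 * e * (13 / 5) := by
      calc (ai - 1) * (ai + 1) ≤ (4 * e) * (ai + 1) :=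
            mul_le_mul_of_nonneg_right h2'.2 (by linarith)
        _ ≤ 4 * e * (13 / 5) := mul_le_mul_of_nonneg_left (by linarith) (by linarith)
    linarith [show (ai - 1) * (ai + 1) = ai ^ 2 - 1 by ring]
  have d2 : 2 * (p * q) * (ai ^ 2 - ai) ≤ 32 / 5 * e * (p ^ 2 + q ^ 2) := by
    calc 2 * (p * q) * (ai ^ 2 - ai) ≤ |2 * (p * q) * (ai ^ 2 - ai)| := le_abs_self _
      _ = |2 * (p * q)| * |ai ^ 2 - ai| := abs_mul _ _
      _ ≤ (p ^ 2 + q ^ 2) * (32 / 5 * e) := by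
        refine mul_le_mul ?_ ?_ (abs_nonneg _) n1
        · rw [abs_le]
          constructor
          · linarith [sq_nonneg (p + q), show (p + q) ^ 2 = p ^ 2 + q ^ 2 + 2 * (p * q) by ring]
          · linarith [sq_nonneg (p - q), show (p - q) ^ 2 = p ^ 2 + q ^ 2 - 2 * (p * q) by ring]
        · rw [show ai ^ 2 - ai = ai * (ai - 1) by ring, abs_mul, abs_of_nonneg h0]
          calc ai * |ai - 1| ≤ 8 / 5 * (4 * e) := mul_le_mul h1 h2 (abs_nonneg _) (by norm_num)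
            _ = 32 / 5 * e := by ring
      _ = 32 / 5 * e * (p ^ 2 + q ^ 2) := by ring
  have d3 := mul_le_mul_of_nonneg_right d1 n1
  have d4 : 0 ≤ e * (p ^ 2 + q ^ 2) := mul_nonneg he n1
  have d5 : (ai ^ 2 - 1) * (p ^ 2 + q ^ 2) = ai ^ 2 * (p ^ 2 + q ^ 2) - (p ^ 2 + q ^ 2) := by ring
  linarith

/-- the real inequality behind `T2_pt` -/
theorem T2_pt_real {ai r p q wa wb s c A B e : ℝ} (h0 : 0 ≤ ai) (h1 : ai ≤ 8 / 5)
    (he : 0 ≤ e) (h2 : |ai - 1| ≤ 4 * e) (h3 : |ai * (1 - r) - 1| ≤ 2 * e)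
    (h4 : |ai * (1 - r)| ≤ 9 / 5) (hwa : 0 ≤ wa) (hwb : 0 ≤ wb) :
    ai * (-2 * (wa + wb) + 2 * (wa * wb) + 4 * (1 - r) * c + 2 * r ^ 2 - 2 * s ^ 2 -
        2 * (p * q) + 2 * (q * A) + 2 * (p * B)) +
      (ai * (2 * (1 - r) * s - (p + q) + wa * q + wb * p)) ^ 2 ≤
    (-2 * (wa + wb) + 4 * c + (p ^ 2 + q ^ 2)) +
      (8 * (e * (wa + wb)) + 16 / 5 * (wa * wb) + 8 * (e * |c|) + 16 / 5 * r ^ 2 +
        17 * (e * (p ^ 2 + q ^ 2)) + 26 * s ^ 2 + 11 * (wa ^ 2 * q ^ 2 + wb ^ 2 * p ^ 2) +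
        12 * (|s| * (|p| + |q|)) + 6 * ((wa * |q| + wb * |p|) * (|p| + |q|)) +
        16 / 5 * (|q| * |A| + |p| * |B|)) := by
  have h2' := abs_le.1 h2
  have i1 : ai * (-2 * (wa + wb)) ≤ -2 * (wa + wb) + 8 * (e * (wa + wb)) := by
    have := mul_nonneg (add_nonneg hwa hwb) (by linarith : 0 ≤ ai - 1 + 4 * e)
    linarith [show (wa + wb) * (ai - 1 + 4 * e) = ai * (wa + wb) - (wa + wb) +
      4 * (e * (wa + wb)) by ring]
  have i2 : ai * (2 * (wa * wb)) ≤ 16 / 5 * (wa * wb) := by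
    have := mul_le_mul_of_nonneg_right h1 (mul_nonneg hwa hwb)
    linarith
  have i3 : ai * (4 * (1 - r) * c) ≤ 4 * c + 8 * (e * |c|) := by
    have : (ai * (1 - r) - 1) * c ≤ 2 * e * |c| := by
      calc (ai * (1 - r) - 1) * c ≤ |(ai * (1 - r) - 1) * c| := le_abs_self _
        _ = |ai * (1 - r) - 1| * |c| := abs_mul _ _
        _ ≤ 2 * e * |c| := mul_le_mul_of_nonneg_right h3 (abs_nonneg _)
    linarith
  have i4 : ai * (2 * r ^ 2) ≤ 16 / 5 * r ^ 2 := by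
    have := mul_le_mul_of_nonneg_right h1 (sq_nonneg r)
    linarith
  have i5 : -(ai * (2 * s ^ 2)) ≤ 0 := by
    have := mul_nonneg h0 (sq_nonneg s); linarith
  have i7 : ∀ x y : ℝ, ai * (2 * (x * y)) ≤ 16 / 5 * (|x| * |y|) := by
    intro x y
    have e1 : x * y ≤ |x| * |y| := by rw [← abs_mul]; exact le_abs_self _
    have e2 : 0 ≤ |x| * |y| := by positivity
    have e3 : ai * (x * y) ≤ ai * (|x| * |y|) := mul_le_mul_of_nonneg_left e1 h0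
    have e4 : ai * (|x| * |y|) ≤ 8 / 5 * (|x| * |y|) := mul_le_mul_of_nonneg_right h1 e2
    linarith
  have c1 := T2_sq_real1 (p := p) (q := q) (s := s) h0 h1 h4 hwa hwb
  have c2 := T2_sq_real2 (p := p) (q := q) (s := s) h0 h1 h4 hwa hwb
  have c3 := T2_sq_real3 (p := p) (q := q) h0 h1 he h2
  have i7a := i7 q A
  have i7b := i7 p B
  have ex2 : ai * (-2 * (wa + wb) + 2 * (wa * wb) + 4 * (1 - r) * c + 2 * r ^ 2 - 2 * s ^ 2 -
        2 * (p * q) + 2 * (q * A) + 2 * (p * B)) +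
      (ai * (2 * (1 - r) * s - (p + q) + wa * q + wb * p)) ^ 2 =
      ai * (-2 * (wa + wb)) + ai * (2 * (wa * wb)) + ai * (4 * (1 - r) * c) + ai * (2 * r ^ 2) +
        -(ai * (2 * s ^ 2)) + ai * (2 * (q * A)) + ai * (2 * (p * B)) +
        ((2 * (ai * (1 - r)) * s + ai * (wa * q + wb * p)) ^ 2 +
        -(2 * (2 * (ai * (1 - r)) * s + ai * (wa * q + wb * p)) * (ai * (p + q))) +
        (ai ^ 2 * (p ^ 2 + q ^ 2) + 2 * (p * q) * (ai ^ 2 - ai))) := by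
    ring
  rw [ex2]
  linarith

variable {ι : Type*} [Fintype ι] [DecidableEq ι]
variable {Z : Matrix ι ι ℝ} {a b : ι}

/-- `|Z_ab| + |Z_aa Z_bb|` -/
noncomputable def eA (Z : Matrix ι ι ℝ) (a b : ι) : ℝ := |Z a b| + |Z a a * Z b b|

theorem eA_nonneg (Z : Matrix ι ι ℝ) (a b : ι) : 0 ≤ eA Z a b := by unfold eA; positivity

/-- the remainder array of `T₂` -/
noncomputable def RT2 (Z : Matrix ι ι ℝ) (a b : ι) : ℝ :=
  8 * (eA Z a b * ((Z ^ 2) a a + (Z ^ 2) b b)) +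
    16 / 5 * ((Z ^ 2) a a * (Z ^ 2) b b) +
    8 * (eA Z a b * |(Z ^ 3) a b|) + 16 / 5 * Z a b ^ 2 +
    17 * (eA Z a b * (Z a a ^ 2 + Z b b ^ 2)) + 26 * (Z ^ 2) a b ^ 2 +
    11 * ((Z ^ 2) a a ^ 2 * Z b b ^ 2 + (Z ^ 2) b b ^ 2 * Z a a ^ 2) +
    12 * (|(Z ^ 2) a b| * (|Z a a| + |Z b b|)) +
    6 * (((Z ^ 2) a a * |Z b b| + (Z ^ 2) b b * |Z a a|) * (|Z a a| + |Z b b|)) +
    16 / 5 * (|Z b b| * |(Z ^ 3) a a| + |Z a a| * |(Z ^ 3) b b|)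

/-- pointwise bound for the increment of `tr Z²` -/
theorem T2_pt (hab : a ≠ b) (hZ : Z.IsSymm) (h : PairOK Z a b) :
    (upd Z a b ^ 2).trace - (Z ^ 2).trace ≤
      (-2 * ((Z ^ 2) a a + (Z ^ 2) b b) + 4 * (Z ^ 3) a b + (Z a a ^ 2 + Z b b ^ 2)) +
        RT2 Z a b := by
  rw [trace_upd_sq_explicit hab hZ h.al_ne]
  have := T2_pt_real (ai := (al Z a b)⁻¹) (r := Z a b) (p := Z a a) (q := Z b b)
    (wa := (Z ^ 2) a a) (wb := (Z ^ 2) b b) (s := (Z ^ 2) a b) (c := (Z ^ 3) a b)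
    (A := (Z ^ 3) a a) (B := (Z ^ 3) b b) (e := eA Z a b)
    (inv_nonneg.2 h.al_pos.le) h.inv_le (eA_nonneg Z a b) h.abs_inv_sub_one h.abs_off_sub_one
    h.abs_off_le (sq_diag_nonneg hZ a) (sq_diag_nonneg hZ b)
  unfold RT2
  linarith

end Vale.Agent.P049.TS
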