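import Vale.Agent.P049.TS.Final.S1

/-!
The drift of `Σ ((Z²)_cc)²` over the admissible pairs.
-/

set_option linter.unusedSectionVars false

namespace Vale.Agent.P049.TS

open Matrix Finset

variable {ι : Type*} [Fintype ι] [DecidableEq ι]
variable {F : Finset ι} {Z : Matrix ι ι ℝ} {A : Finset (ι × ι)} {G m L t σ v ν b μ : ℝ}

/-! ### Real inequalities -/

theorem abs_two_mul_le_of_sq_le {x y s u w : ℝ} (hu : 0 ≤ u) (hw : 0 ≤ w) (hs : s ^ 2 ≤ u * w) :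
    |2 * (x * y) * s| ≤ x ^ 2 * u + y ^ 2 * w := by
  refine abs_le_of_sq_le_sq ?_ (by positivity)
  have h1 : x ^ 2 * y ^ 2 * s ^ 2 ≤ x ^ 2 * y ^ 2 * (u * w) :=
    mul_le_mul_of_nonneg_left hs (by positivity)
  linarith [sq_nonneg (x ^ 2 * u - y ^ 2 * w), show (x ^ 2 * u - y ^ 2 * w) ^ 2 =
    (x ^ 2 * u + y ^ 2 * w) ^ 2 - 4 * (x ^ 2 * y ^ 2 * (u * w)) by ring,
    show (2 * (x * y) * s) ^ 2 = 4 * (x ^ 2 * y ^ 2 * s ^ 2) by ring]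

/-- the increment of a row norm without the removed coordinates -/
def tht (c1 c2 wa wb s A B : ℝ) : ℝ :=
  2 * (c1 * A + c2 * B) + (c1 ^ 2 * wa + 2 * (c1 * c2) * s + c2 ^ 2 * wb)

/-- removed index -/
theorem V2_rem_real {ai r p q wa wb s e : ℝ} (h0 : 0 ≤ ai) (h1 : ai ≤ 8 / 5)
    (h4 : |ai * (1 - r)| ≤ 9 / 5) (he : e = |r| + |p * q|) (hwa : 0 ≤ wa) (hwb : 0 ≤ wb)
    (hs : s ^ 2 ≤ wa * wb) :
    -(wa + tht (ai * (q * p + (1 - r) * r)) (ai * ((1 - r) * p + p * r)) wa wb s wa s) ^ 2 ≤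
      -wa ^ 2 + 8 * (e * wa ^ 2) + 32 / 5 * (|s| * (|p| * wa)) := by
  set c1 := ai * (q * p + (1 - r) * r) with hc1
  set c2 := ai * ((1 - r) * p + p * r) with hc2
  have e1 : |c1| ≤ 2 * e := by
    have : c1 = ai * (p * q) + ai * (1 - r) * r := by rw [hc1]; ring
    rw [this, he]
    refine (abs_add_le _ _).trans ?_
    rw [abs_mul ai (p * q), abs_mul _ r, abs_of_nonneg h0]
    have g1 := mul_le_mul_of_nonneg_right h1 (abs_nonneg (p * q))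
    have g2 := mul_le_mul_of_nonneg_right h4 (abs_nonneg r)
    linarith [abs_nonneg (p * q), abs_nonneg r]
  have e2 : |c2| ≤ 8 / 5 * |p| := by
    have : c2 = ai * p := by rw [hc2]; ring
    rw [this, abs_mul, abs_of_nonneg h0]
    exact mul_le_mul_of_nonneg_right h1 (abs_nonneg p)
  have e3 := (abs_le.1 (abs_two_mul_le_of_sq_le (x := c1) (y := c2) hwa hwb hs)).1
  have e4 : -(c1 * wa) ≤ 2 * e * wa := by
    have : |c1 * wa| ≤ 2 * e * wa := by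
      rw [abs_mul, abs_of_nonneg hwa]; exact mul_le_mul_of_nonneg_right e1 hwa
    exact (neg_le_abs _).trans this
  have e5 : -(c2 * s) ≤ 8 / 5 * |p| * |s| := by
    have : |c2 * s| ≤ 8 / 5 * |p| * |s| := by
      rw [abs_mul]; exact mul_le_mul_of_nonneg_right e2 (abs_nonneg s)
    exact (neg_le_abs _).trans this
  have e6 : -tht c1 c2 wa wb s wa s ≤ 4 * e * wa + 16 / 5 * |p| * |s| := by
    unfold tht
    linarith
  have e7 : wa * -tht c1 c2 wa wb s wa s ≤ wa * (4 * e * wa + 16 / 5 * |p| * |s|) :=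
    mul_le_mul_of_nonneg_left e6 hwa
  linarith [sq_nonneg (tht c1 c2 wa wb s wa s),
    show -(wa + tht c1 c2 wa wb s wa s) ^ 2 = -wa ^ 2 + 2 * (wa * -tht c1 c2 wa wb s wa s) -
      tht c1 c2 wa wb s wa s ^ 2 by ring]

/-- the error of a surviving index, one half -/
noncomputable def Hr (wc p' x y A wa e : ℝ) : ℝ :=
  4 * (wc * ((8 / 5 * (|p'| * |x|) + 2 * (e * |y|)) * |A|)) +
    4 * (wc * ((6 * (p' ^ 2 * x ^ 2) + 7 * y ^ 2) * wa)) +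
    16 * ((6 * (p' ^ 2 * x ^ 2) + 7 * y ^ 2) * A ^ 2) +
    16 * ((72 * ((p' ^ 2) ^ 2 * (x ^ 2) ^ 2) + 98 * (y ^ 2) ^ 2) * wa ^ 2)

theorem V2_c_real {ai r q x y e : ℝ} (h0 : 0 ≤ ai) (h1 : ai ≤ 8 / 5)
    (h3 : |ai * (1 - r) - 1| ≤ 2 * e) (h4 : |ai * (1 - r)| ≤ 9 / 5) :
    |ai * (q * x + (1 - r) * y) - y| ≤ 8 / 5 * (|q| * |x|) + 2 * (e * |y|) ∧
      (ai * (q * x + (1 - r) * y)) ^ 2 ≤ 6 * (q ^ 2 * x ^ 2) + 7 * y ^ 2 := by
  constructor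
  · have e1 : ai * (q * x + (1 - r) * y) - y = ai * (q * x) + (ai * (1 - r) - 1) * y := by ring
    rw [e1]
    refine (abs_add_le _ _).trans ?_
    rw [abs_mul, abs_mul, abs_mul _ y, abs_of_nonneg h0]
    have g1 := mul_le_mul_of_nonneg_right h1 (mul_nonneg (abs_nonneg q) (abs_nonneg x))
    have g2 := mul_le_mul_of_nonneg_right h3 (abs_nonneg y)
    linarith
  · have g1 : ai ^ 2 ≤ (8 / 5) ^ 2 := pow_le_pow_left₀ h0 h1 2
    have g2 : (ai * (1 - r)) ^ 2 ≤ (9 / 5) ^ 2 := by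
      rw [← sq_abs]; exact pow_le_pow_left₀ (abs_nonneg _) h4 2
    have g3 := mul_le_mul_of_nonneg_right g1 (mul_nonneg (sq_nonneg q) (sq_nonneg x))
    have g4 := mul_le_mul_of_nonneg_right g2 (sq_nonneg y)
    have g5 := sq_nonneg (ai * (q * x) - ai * (1 - r) * y)
    have g6 := mul_nonneg (sq_nonneg q) (sq_nonneg x)
    linarith [sq_nonneg y, show (ai * (q * x + (1 - r) * y)) ^ 2 +
      (ai * (q * x) - ai * (1 - r) * y) ^ 2 = 2 * (ai ^ 2 * (q ^ 2 * x ^ 2)) +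
      2 * ((ai * (1 - r)) ^ 2 * y ^ 2) by ring]

/-- surviving index -/
theorem V2_sum_real {c1 c2 p q x y w wa wb s A B e : ℝ} (hw : 0 ≤ w) (hwa : 0 ≤ wa) (hwb : 0 ≤ wb)
    (hs : s ^ 2 ≤ wa * wb)
    (h1 : |c1 - y| ≤ 8 / 5 * (|q| * |x|) + 2 * (e * |y|))
    (h1' : c1 ^ 2 ≤ 6 * (q ^ 2 * x ^ 2) + 7 * y ^ 2)
    (h2 : |c2 - x| ≤ 8 / 5 * (|p| * |y|) + 2 * (e * |x|))
    (h2' : c2 ^ 2 ≤ 6 * (p ^ 2 * y ^ 2) + 7 * x ^ 2) :
    (w + tht c1 c2 wa wb s A B) ^ 2 ≤ w ^ 2 + 4 * (w * (A * y + x * B)) +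
      (Hr w q x y A wa e + Hr w p y x B wb e) := by
  set ρ := c1 ^ 2 * wa + 2 * (c1 * c2) * s + c2 ^ 2 * wb with hρ
  have hρ' := abs_le.1 (abs_two_mul_le_of_sq_le (x := c1) (y := c2) hwa hwb hs)
  have r0 : 0 ≤ ρ := by rw [hρ]; linarith [hρ'.1]
  have r1 : ρ ≤ 2 * (c1 ^ 2 * wa + c2 ^ 2 * wb) := by rw [hρ]; linarith [hρ'.2]
  have m1 : w * ((c1 - y) * A) ≤ w * ((8 / 5 * (|q| * |x|) + 2 * (e * |y|)) * |A|) := by
    refine mul_le_mul_of_nonneg_left ((le_abs_self _).trans ?_) hw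
    rw [abs_mul]; exact mul_le_mul_of_nonneg_right h1 (abs_nonneg A)
  have m2 : w * ((c2 - x) * B) ≤ w * ((8 / 5 * (|p| * |y|) + 2 * (e * |x|)) * |B|) := by
    refine mul_le_mul_of_nonneg_left ((le_abs_self _).trans ?_) hw
    rw [abs_mul]; exact mul_le_mul_of_nonneg_right h2 (abs_nonneg B)
  have n1 : w * (c1 ^ 2 * wa) ≤ w * ((6 * (q ^ 2 * x ^ 2) + 7 * y ^ 2) * wa) :=
    mul_le_mul_of_nonneg_left (mul_le_mul_of_nonneg_right h1' hwa) hw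
  have n2 : w * (c2 ^ 2 * wb) ≤ w * ((6 * (p ^ 2 * y ^ 2) + 7 * x ^ 2) * wb) :=
    mul_le_mul_of_nonneg_left (mul_le_mul_of_nonneg_right h2' hwb) hw
  have q1 : c1 ^ 2 * A ^ 2 ≤ (6 * (q ^ 2 * x ^ 2) + 7 * y ^ 2) * A ^ 2 :=
    mul_le_mul_of_nonneg_right h1' (sq_nonneg A)
  have q2 : c2 ^ 2 * B ^ 2 ≤ (6 * (p ^ 2 * y ^ 2) + 7 * x ^ 2) * B ^ 2 :=
    mul_le_mul_of_nonneg_right h2' (sq_nonneg B)
  have f4 : ∀ {c a x y w : ℝ}, c ^ 2 ≤ 6 * (a ^ 2 * x ^ 2) + 7 * y ^ 2 →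
      (c ^ 2) ^ 2 * w ^ 2 ≤ (72 * ((a ^ 2) ^ 2 * (x ^ 2) ^ 2) + 98 * (y ^ 2) ^ 2) * w ^ 2 := by
    intro c a x y w h
    refine mul_le_mul_of_nonneg_right ?_ (sq_nonneg w)
    have g1 := pow_le_pow_left₀ (sq_nonneg c) h 2
    linarith [sq_nonneg (6 * (a ^ 2 * x ^ 2) - 7 * y ^ 2),
      show (6 * (a ^ 2 * x ^ 2) + 7 * y ^ 2) ^ 2 + (6 * (a ^ 2 * x ^ 2) - 7 * y ^ 2) ^ 2 =
        72 * ((a ^ 2) ^ 2 * (x ^ 2) ^ 2) + 98 * (y ^ 2) ^ 2 by ring]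
  have u1 := f4 (w := wa) h1'
  have u2 := f4 (w := wb) h2'
  have r2 : ρ ^ 2 ≤ 8 * ((c1 ^ 2) ^ 2 * wa ^ 2 + (c2 ^ 2) ^ 2 * wb ^ 2) := by
    have g1 := pow_le_pow_left₀ r0 r1 2
    linarith [sq_nonneg (c1 ^ 2 * wa - c2 ^ 2 * wb),
      show (2 * (c1 ^ 2 * wa + c2 ^ 2 * wb)) ^ 2 + 4 * (c1 ^ 2 * wa - c2 ^ 2 * wb) ^ 2 =
        8 * ((c1 ^ 2) ^ 2 * wa ^ 2 + (c2 ^ 2) ^ 2 * wb ^ 2) by ring]
  have r3 : w * ρ ≤ w * (2 * (c1 ^ 2 * wa + c2 ^ 2 * wb)) := mul_le_mul_of_nonneg_left r1 hw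
  have r4 : tht c1 c2 wa wb s A B ^ 2 ≤ 16 * (c1 ^ 2 * A ^ 2 + c2 ^ 2 * B ^ 2) + 2 * ρ ^ 2 := by
    have : tht c1 c2 wa wb s A B = 2 * (c1 * A + c2 * B) + ρ := rfl
    rw [this]
    linarith [sq_nonneg (2 * (c1 * A + c2 * B) - ρ), sq_nonneg (c1 * A - c2 * B),
      show (2 * (c1 * A + c2 * B) + ρ) ^ 2 + (2 * (c1 * A + c2 * B) - ρ) ^ 2 +
        8 * (c1 * A - c2 * B) ^ 2 = 16 * (c1 ^ 2 * A ^ 2 + c2 ^ 2 * B ^ 2) + 2 * ρ ^ 2 by ring]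
  have ex : (w + tht c1 c2 wa wb s A B) ^ 2 = w ^ 2 + 4 * (w * (A * y + x * B)) +
      4 * (w * ((c1 - y) * A)) + 4 * (w * ((c2 - x) * B)) + 2 * (w * ρ) +
      tht c1 c2 wa wb s A B ^ 2 := by
    unfold tht
    rw [hρ]
    ring
  rw [ex]
  unfold Hr
  linarith [show w * (2 * (c1 ^ 2 * wa + c2 ^ 2 * wb)) =
    2 * (w * (c1 ^ 2 * wa)) + 2 * (w * (c2 ^ 2 * wb)) by ring]

/-! ### The pointwise bound -/

/-- `P_ab² ≤ w_a w_b` -/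
theorem sq_entry_sq_le (hZ : Z.IsSymm) (a b : ι) :
    (Z ^ 2) a b ^ 2 ≤ (Z ^ 2) a a * (Z ^ 2) b b := by
  have h1 := abs_pow_entry_le hZ 0 a b
  rw [zero_add, pow_zero, one_mul] at h1
  have h2 := pow_le_pow_left₀ (abs_nonneg _) h1 2
  rw [sq_abs, mul_pow, Real.sq_sqrt (sq_diag_nonneg hZ a), Real.sq_sqrt (sq_diag_nonneg hZ b)] at h2
  exact h2

/-- the untruncated increment of `w_c` -/
noncomputable def th (Z : Matrix ι ι ℝ) (a b c : ι) : ℝ :=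
  tht (ca Z a b c) (cb Z a b c) ((Z ^ 2) a a) ((Z ^ 2) b b) ((Z ^ 2) a b) ((Z ^ 2) a c)
    ((Z ^ 2) b c)

theorem upd_row_zero {a b : ι} (c : ι) (hc : c = a ∨ c = b) : (upd Z a b ^ 2) c c = 0 := by
  rw [sq, Matrix.mul_apply]
  refine Finset.sum_eq_zero fun j _ => ?_
  have : upd Z a b c j = 0 := by
    rw [upd, Matrix.of_apply, if_pos (by tauto)]
  rw [this, zero_mul]

theorem sum_w_sq_upd {a b : ι} (hab : a ≠ b) (hZ : Z.IsSymm) (h : al Z a b ≠ 0) :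
    ∑ c, (upd Z a b ^ 2) c c ^ 2 ≤ ∑ c, ((Z ^ 2) c c + th Z a b c) ^ 2 -
      ((Z ^ 2) a a + th Z a b a) ^ 2 - ((Z ^ 2) b b + th Z a b b) ^ 2 := by
  rw [← sum_trunc hab (fun c => if c = a ∨ c = b then 0 else ((Z ^ 2) c c + th Z a b c) ^ 2)
    (fun c => ((Z ^ 2) c c + th Z a b c) ^ 2) (if_pos (Or.inl rfl)) (if_pos (Or.inr rfl))
    (fun c h1 h2 => if_neg (by tauto))]
  refine Finset.sum_le_sum fun c _ => ?_
  by_cases hc : c = a ∨ c = b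
  · rw [upd_row_zero c hc, if_pos hc]; norm_num
  · rw [if_neg hc]
    have h1 : (upd Z a b ^ 2) c c ≤ (Z ^ 2) c c + th Z a b c := by
      rw [upd_sq_diag hab hZ h c (by tauto) (by tauto)]
      unfold th tht
      linarith [sq_nonneg (ca Z a b c), sq_nonneg (cb Z a b c)]
    exact pow_le_pow_left₀ (sq_diag_nonneg (upd_isSymm hZ) c) h1 2

/-- the remainder array of `V₂` for one surviving index, one half -/
noncomputable def HV (Z : Matrix ι ι ℝ) (a b c : ι) : ℝ :=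
  Hr ((Z ^ 2) c c) (Z b b) (Z a c) (Z b c) ((Z ^ 2) a c) ((Z ^ 2) a a) (eA Z a b)

theorem eA_comm (hZ : Z.IsSymm) (a b : ι) : eA Z b a = eA Z a b := by
  unfold eA; rw [hZ.apply a b, mul_comm]

/-- pointwise bound for the increment of `Σ ((Z²)_cc)²` -/
theorem V2_pt {a b : ι} (hab : a ≠ b) (hZ : Z.IsSymm) (h : PairOK Z a b) :
    ∑ c, (upd Z a b ^ 2) c c ^ 2 - ∑ c, (Z ^ 2) c c ^ 2 ≤
      -((Z ^ 2) a a ^ 2 + (Z ^ 2) b b ^ 2) +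
        (8 * (eA Z a b * ((Z ^ 2) a a ^ 2 + (Z ^ 2) b b ^ 2)) +
        32 / 5 * (|(Z ^ 2) a b| * (|Z a a| * (Z ^ 2) a a + |Z b b| * (Z ^ 2) b b))) +
        (∑ c, 4 * ((Z ^ 2) c c * ((Z ^ 2) a c * Z b c + Z a c * (Z ^ 2) b c)) +
        ∑ c, (HV Z a b c + HV Z b a c)) := by
  have s1 : Z b a = Z a b := hZ.apply a b
  have s2 : (Z ^ 2) b a = (Z ^ 2) a b := (symm_pow hZ 2).apply a b
  have k0 := inv_nonneg.2 h.al_pos.le
  have wa := sq_diag_nonneg hZ a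
  have wb := sq_diag_nonneg hZ b
  have hs := sq_entry_sq_le hZ a b
  have hs' : (Z ^ 2) a b ^ 2 ≤ (Z ^ 2) b b * (Z ^ 2) a a := by rw [mul_comm]; exact hs
  have h0 := sum_w_sq_upd hab hZ h.al_ne
  have h1 : -((Z ^ 2) a a + th Z a b a) ^ 2 ≤ -(Z ^ 2) a a ^ 2 + 8 * (eA Z a b * (Z ^ 2) a a ^ 2) +
      32 / 5 * (|(Z ^ 2) a b| * (|Z a a| * (Z ^ 2) a a)) := by
    have := V2_rem_real (p := Z a a) (q := Z b b) (e := eA Z a b) k0 h.inv_le h.abs_off_le rfl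
      wa wb hs
    unfold th ca cb
    rw [s1, s2]
    exact this
  have h2 : -((Z ^ 2) b b + th Z a b b) ^ 2 ≤ -(Z ^ 2) b b ^ 2 + 8 * (eA Z a b * (Z ^ 2) b b ^ 2) +
      32 / 5 * (|(Z ^ 2) a b| * (|Z b b| * (Z ^ 2) b b)) := by
    have := V2_rem_real (p := Z b b) (q := Z a a) (e := eA Z a b) k0 h.inv_le h.abs_off_le
      (by rw [mul_comm (Z b b)]; rfl) wb wa hs'
    refine le_trans (le_of_eq ?_) this
    unfold th ca cb tht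
    ring
  have h3 : ∑ c, ((Z ^ 2) c c + th Z a b c) ^ 2 ≤
      ∑ c, ((Z ^ 2) c c ^ 2 + (4 * ((Z ^ 2) c c * ((Z ^ 2) a c * Z b c + Z a c * (Z ^ 2) b c)) +
        (HV Z a b c + HV Z b a c))) := by
    refine Finset.sum_le_sum fun c _ => ?_
    have c1 := V2_c_real (q := Z b b) (x := Z a c) (y := Z b c) k0 h.inv_le h.abs_off_sub_one
      h.abs_off_le
    have c2 := V2_c_real (q := Z a a) (x := Z b c) (y := Z a c) k0 h.inv_le h.abs_off_sub_one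
      h.abs_off_le
    have ecb : (al Z a b)⁻¹ * (Z a a * Z b c + (1 - Z a b) * Z a c) = cb Z a b c := by
      unfold cb; ring
    rw [ecb] at c2
    have := V2_sum_real (c1 := ca Z a b c) (c2 := cb Z a b c) (w := (Z ^ 2) c c)
      (A := (Z ^ 2) a c) (B := (Z ^ 2) b c) (sq_diag_nonneg hZ c) wa wb hs c1.1 c1.2 c2.1 c2.2
    unfold HV
    rw [eA_comm hZ a b]
    unfold eA
    unfold th
    linarith
  rw [Finset.sum_add_distrib, Finset.sum_add_distrib] at h3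
  linarith

end Vale.Agent.P049.TS
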