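import Vale.Agent.P049.TS.Final.V2

/-!
The drift of `Σ ((Z²)_cc)²` over the admissible pairs: summation.
-/

set_option linter.unusedSectionVars false

namespace Vale.Agent.P049.TS

open Matrix Finset

variable {ι : Type*} [Fintype ι] [DecidableEq ι]
variable {F : Finset ι} {Z : Matrix ι ι ℝ} {A : Finset (ι × ι)} {G m L t σ v ν b μ : ℝ}

theorem colP_sq (hZ : Z.IsSymm) (hb0 : 0 ≤ b) (h : Mat.OpB Z b) (c : ι) :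
    ∑ a, (Z ^ 2) a c ^ 2 ≤ (b * √((Z ^ 2) c c)) ^ 2 := by
  have h1 := Mat.OpB.row_pow_le hZ h 1 1 c
  rw [show (1 + 1 : ℕ) = 2 from rfl, pow_one, ← sq_diag_eq hZ c, mul_one] at h1
  rw [mul_pow, Real.sq_sqrt (sq_diag_nonneg hZ c)]
  refine le_trans (le_of_eq ?_) h1
  exact Finset.sum_congr rfl fun a _ => by rw [(symm_pow hZ 2).apply]

theorem colPF_sq (hZ : Z.IsSymm) (hb0 : 0 ≤ b) (h : Mat.OpB Z b) (F : Finset ι) (c : ι) :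
    ∑ a ∈ F, (Z ^ 2) a c ^ 2 ≤ (b * √((Z ^ 2) c c)) ^ 2 :=
  (sumF_le_univ F fun _ => sq_nonneg _).trans (colP_sq hZ hb0 h c)

/-- the constant of the surviving indices -/
noncomputable def KV (t σ v ν b μ : ℝ) : ℝ :=
  32 / 5 * (σ * ν * b) + 8 * (t * b) + 8 * (σ ^ 2 * b) + 120 * (σ ^ 2 * μ ^ 2) + 28 * t ^ 2 +
    112 * b ^ 2 + 1152 * (σ ^ 4 * μ ^ 4) + 1568 * v ^ 2

theorem KV_nonneg (ht : 0 ≤ t) (hσ : 0 ≤ σ) (hν : 0 ≤ ν) (hb : 0 ≤ b) : 0 ≤ KV t σ v ν b μ := by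
  unfold KV; positivity

theorem sumF_HV_col (hB : ZBase F Z) (hb : Bds F Z t σ v ν b)
    (hμ : ∀ a, (Z ^ 2) a a ≤ μ ^ 2) (c : ι) :
    ∑ p ∈ F ×ˢ F, HV Z p.1 p.2 c ≤ KV t σ v ν b μ * (Z ^ 2) c c ^ 2 := by
  have hw0 := fun a => sq_diag_nonneg hB.symm a
  have hw := hw0 c
  have t0 := hb.t0
  have σ0 := hb.σ0
  have ν0 := hb.ν0
  have b0 := hb.b0
  have hS := hb.SF
  have hV := hb.VF
  have hsub : F ×ˢ F ⊆ F ×ˢ F := Finset.Subset.refl _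
  have hZa := arr_mat F Z (hb.frob1 hB.symm)
  have hcol := colF_sq hB.symm F c
  have hcolP := colPF_sq hB.symm b0 hb.op F c
  have hPe : ∀ a, (Z ^ 2) a c ^ 2 ≤ μ ^ 2 * (Z ^ 2) c c := fun a =>
    (sq_entry_sq_le hB.symm a c).trans (mul_le_mul_of_nonneg_right (hμ a) hw)
  set rc := √((Z ^ 2) c c) with hrc
  have hr0 : 0 ≤ rc := Real.sqrt_nonneg _
  have hr2 : rc * rc = (Z ^ 2) c c := Real.mul_self_sqrt hw
  have hr2' : rc ^ 2 = (Z ^ 2) c c := Real.sq_sqrt hw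
  have B1 : ∑ p ∈ F ×ˢ F, (|Z p.1 c| * |(Z ^ 2) p.1 c|) * |Z p.2 p.2| ≤
      (rc * (b * rc)) * (σ * ν) :=
    sumA_mul_le hsub (f := fun a => |Z a c| * |(Z ^ 2) a c|) (g := fun a => |Z a a|)
      (fun a => by positivity) (fun a => abs_nonneg _)
      (sumF_mul_le F (fun a => Z a c) (fun a => (Z ^ 2) a c) hr0 (by positivity) hcol hcolP)
      hb.absS
  have B2 : ∑ p ∈ F ×ˢ F, |Z p.1 p.2| * |(Z ^ 2) p.1 c * Z p.2 c| ≤ t * ((b * rc) * rc) :=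
    sumA_arr_le hsub (fun p => Z p.1 p.2) (fun p => (Z ^ 2) p.1 c * Z p.2 c) t0
      (by positivity) hZa (arr_mul F (fun a => (Z ^ 2) a c) (fun a => Z a c) hcolP hcol)
  have B3 : ∑ p ∈ F ×ˢ F, (|Z p.1 p.1| * |(Z ^ 2) p.1 c|) * (|Z p.2 p.2| * |Z p.2 c|) ≤
      (σ * (b * rc)) * (σ * rc) :=
    sumA_mul_le hsub (f := fun a => |Z a a| * |(Z ^ 2) a c|) (g := fun a => |Z a a| * |Z a c|)
      (fun a => by positivity) (fun a => by positivity)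
      (sumF_mul_le F (fun a => Z a a) (fun a => (Z ^ 2) a c) σ0 (by positivity) hS hcolP)
      (sumF_mul_le F (fun a => Z a a) (fun a => Z a c) σ0 hr0 hS hcol)
  have s4 : ∑ a ∈ F, Z a c ^ 2 * (Z ^ 2) a a ≤ rc ^ 2 * μ ^ 2 := by
    refine (Finset.sum_le_sum fun a _ => mul_le_mul_of_nonneg_left (hμ a) (sq_nonneg _)).trans ?_
    rw [← Finset.sum_mul]
    exact mul_le_mul_of_nonneg_right hcol (sq_nonneg _)
  have B4 : ∑ p ∈ F ×ˢ F, (Z p.1 c ^ 2 * (Z ^ 2) p.1 p.1) * Z p.2 p.2 ^ 2 ≤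
      (rc ^ 2 * μ ^ 2) * σ ^ 2 :=
    sumA_mul_le hsub (f := fun a => Z a c ^ 2 * (Z ^ 2) a a) (g := fun a => Z a a ^ 2)
      (fun a => mul_nonneg (sq_nonneg _) (hw0 a)) (fun a => sq_nonneg _) s4 hS
  have B5 : ∑ p ∈ F ×ˢ F, (Z ^ 2) p.1 p.1 * Z p.2 c ^ 2 ≤ t ^ 2 * rc ^ 2 :=
    sumA_mul_le hsub (f := fun a => (Z ^ 2) a a) (g := fun a => Z a c ^ 2)
      hw0 (fun a => sq_nonneg _) (hb.sumw hB) hcol
  have s6 : ∑ a ∈ F, Z a c ^ 2 * (Z ^ 2) a c ^ 2 ≤ rc ^ 2 * (μ ^ 2 * (Z ^ 2) c c) := by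
    refine (Finset.sum_le_sum fun a _ => mul_le_mul_of_nonneg_left (hPe a) (sq_nonneg _)).trans ?_
    rw [← Finset.sum_mul]
    exact mul_le_mul_of_nonneg_right hcol (by positivity)
  have B6 : ∑ p ∈ F ×ˢ F, (Z p.1 c ^ 2 * (Z ^ 2) p.1 c ^ 2) * Z p.2 p.2 ^ 2 ≤
      (rc ^ 2 * (μ ^ 2 * (Z ^ 2) c c)) * σ ^ 2 :=
    sumA_mul_le hsub (f := fun a => Z a c ^ 2 * (Z ^ 2) a c ^ 2) (g := fun a => Z a a ^ 2)
      (fun a => by positivity) (fun a => sq_nonneg _) s6 hS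
  have B7 : ∑ p ∈ F ×ˢ F, (Z ^ 2) p.1 c ^ 2 * Z p.2 c ^ 2 ≤ (b * rc) ^ 2 * rc ^ 2 :=
    sumA_mul_le hsub (f := fun a => (Z ^ 2) a c ^ 2) (g := fun a => Z a c ^ 2)
      (fun a => sq_nonneg _) (fun a => sq_nonneg _) hcolP hcol
  have h4 := diag_pow4_le F (f := fun a => Z a c) (col_sq hB.symm c).le
  rw [← hrc] at h4
  have hq4 := diag_pow4_le F (f := fun a => Z a a) hb.S
  have s8 : ∑ a ∈ F, (Z a c ^ 2) ^ 2 * (Z ^ 2) a a ^ 2 ≤ (rc ^ 2) ^ 2 * (μ ^ 2) ^ 2 := by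
    refine (Finset.sum_le_sum fun a _ => mul_le_mul_of_nonneg_left
      (pow_le_pow_left₀ (hw0 a) (hμ a) 2) (sq_nonneg _)).trans ?_
    rw [← Finset.sum_mul]
    exact mul_le_mul_of_nonneg_right h4 (sq_nonneg _)
  have B8 : ∑ p ∈ F ×ˢ F, ((Z p.1 c ^ 2) ^ 2 * (Z ^ 2) p.1 p.1 ^ 2) * (Z p.2 p.2 ^ 2) ^ 2 ≤
      ((rc ^ 2) ^ 2 * (μ ^ 2) ^ 2) * (σ ^ 2) ^ 2 :=
    sumA_mul_le hsub (f := fun a => (Z a c ^ 2) ^ 2 * (Z ^ 2) a a ^ 2)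
      (g := fun a => (Z a a ^ 2) ^ 2)
      (fun a => by positivity) (fun a => sq_nonneg _) s8 hq4
  have B9 : ∑ p ∈ F ×ˢ F, (Z ^ 2) p.1 p.1 ^ 2 * (Z p.2 c ^ 2) ^ 2 ≤ v ^ 2 * (rc ^ 2) ^ 2 :=
    sumA_mul_le hsub (f := fun a => (Z ^ 2) a a ^ 2) (g := fun a => (Z a c ^ 2) ^ 2)
      (fun a => sq_nonneg _) (fun a => sq_nonneg _) hV h4
  have key : ∀ p : ι × ι, HV Z p.1 p.2 c =
      32 / 5 * ((Z ^ 2) c c * ((|Z p.1 c| * |(Z ^ 2) p.1 c|) * |Z p.2 p.2|)) +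
      8 * ((Z ^ 2) c c * (|Z p.1 p.2| * |(Z ^ 2) p.1 c * Z p.2 c|)) +
      8 * ((Z ^ 2) c c * ((|Z p.1 p.1| * |(Z ^ 2) p.1 c|) * (|Z p.2 p.2| * |Z p.2 c|))) +
      24 * ((Z ^ 2) c c * ((Z p.1 c ^ 2 * (Z ^ 2) p.1 p.1) * Z p.2 p.2 ^ 2)) +
      28 * ((Z ^ 2) c c * ((Z ^ 2) p.1 p.1 * Z p.2 c ^ 2)) +
      96 * ((Z p.1 c ^ 2 * (Z ^ 2) p.1 c ^ 2) * Z p.2 p.2 ^ 2) +
      112 * ((Z ^ 2) p.1 c ^ 2 * Z p.2 c ^ 2) +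
      1152 * (((Z p.1 c ^ 2) ^ 2 * (Z ^ 2) p.1 p.1 ^ 2) * (Z p.2 p.2 ^ 2) ^ 2) +
      1568 * ((Z ^ 2) p.1 p.1 ^ 2 * (Z p.2 c ^ 2) ^ 2) := by
    intro p
    unfold HV Hr eA
    rw [abs_mul (Z p.1 p.1), abs_mul ((Z ^ 2) p.1 c)]
    ring
  simp only [key, Finset.sum_add_distrib, ← Finset.mul_sum]
  have C1 := mul_le_mul_of_nonneg_left B1 hw
  have C2 := mul_le_mul_of_nonneg_left B2 hw
  have C3 := mul_le_mul_of_nonneg_left B3 hw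
  have C4 := mul_le_mul_of_nonneg_left B4 hw
  have C5 := mul_le_mul_of_nonneg_left B5 hw
  have R1 : (Z ^ 2) c c * ((rc * (b * rc)) * (σ * ν)) = σ * ν * b * (Z ^ 2) c c ^ 2 := by
    rw [← hr2]; ring
  have R2 : (Z ^ 2) c c * (t * ((b * rc) * rc)) = t * b * (Z ^ 2) c c ^ 2 := by
    rw [← hr2]; ring
  have R3 : (Z ^ 2) c c * ((σ * (b * rc)) * (σ * rc)) = σ ^ 2 * b * (Z ^ 2) c c ^ 2 := by
    rw [← hr2]; ring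
  have R4 : (Z ^ 2) c c * ((rc ^ 2 * μ ^ 2) * σ ^ 2) = σ ^ 2 * μ ^ 2 * (Z ^ 2) c c ^ 2 := by
    rw [hr2']; ring
  have R5 : (Z ^ 2) c c * (t ^ 2 * rc ^ 2) = t ^ 2 * (Z ^ 2) c c ^ 2 := by
    rw [hr2']; ring
  have R6 : (rc ^ 2 * (μ ^ 2 * (Z ^ 2) c c)) * σ ^ 2 = σ ^ 2 * μ ^ 2 * (Z ^ 2) c c ^ 2 := by
    rw [hr2']; ring
  have R7 : (b * rc) ^ 2 * rc ^ 2 = b ^ 2 * (Z ^ 2) c c ^ 2 := by
    rw [mul_pow, hr2']; ring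
  have R8 : ((rc ^ 2) ^ 2 * (μ ^ 2) ^ 2) * (σ ^ 2) ^ 2 = σ ^ 4 * μ ^ 4 * (Z ^ 2) c c ^ 2 := by
    rw [hr2']; ring
  have R9 : v ^ 2 * (rc ^ 2) ^ 2 = v ^ 2 * (Z ^ 2) c c ^ 2 := by
    rw [hr2']
  rw [R1] at C1
  rw [R2] at C2
  rw [R3] at C3
  rw [R4] at C4
  rw [R5] at C5
  rw [R6] at B6
  rw [R7] at B7
  rw [R8] at B8
  rw [R9] at B9
  unfold KV
  linarith

theorem sumF_HV_swap (c : ι) : ∑ p ∈ F ×ˢ F, HV Z p.2 p.1 c = ∑ p ∈ F ×ˢ F, HV Z p.1 p.2 c := by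
  rw [Finset.sum_product, Finset.sum_product_right]

theorem Hr_nonneg {wc p' x y A wa e : ℝ} (hc : 0 ≤ wc) (hwa : 0 ≤ wa) (he : 0 ≤ e) :
    0 ≤ Hr wc p' x y A wa e := by
  unfold Hr; positivity

theorem HV_nonneg (hZ : Z.IsSymm) (a b c : ι) : 0 ≤ HV Z a b c :=
  Hr_nonneg (sq_diag_nonneg hZ c) (sq_diag_nonneg hZ a) (eA_nonneg Z a b)

theorem sumA_HV_col (hB : ZBase F Z) (hb : Bds F Z t σ v ν b) (hA : AdmOK F Z A G m L)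
    (hμ : ∀ a, (Z ^ 2) a a ≤ μ ^ 2) (c : ι) :
    ∑ p ∈ A, (HV Z p.1 p.2 c + HV Z p.2 p.1 c) ≤ 2 * (KV t σ v ν b μ * (Z ^ 2) c c ^ 2) := by
  have h1 : ∑ p ∈ A, (HV Z p.1 p.2 c + HV Z p.2 p.1 c) ≤
      ∑ p ∈ F ×ˢ F, (HV Z p.1 p.2 c + HV Z p.2 p.1 c) :=
    Finset.sum_le_sum_of_subset_of_nonneg hA.sub fun p _ _ =>
      add_nonneg (HV_nonneg hB.symm _ _ _) (HV_nonneg hB.symm _ _ _)
  rw [Finset.sum_add_distrib (s := F ×ˢ F), sumF_HV_swap] at h1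
  have := sumF_HV_col hB hb hμ c
  linarith

/-- the column sums of `Z²` -/
theorem ZBase.colsumP (h : ZBase F Z) (c : ι) (hc : c ∈ F) : ∑ a ∈ F, (Z ^ 2) a c = 1 := by
  have := h.row_F 1 hc
  rw [show (1 + 1 : ℕ) = 2 from rfl] at this
  rw [← this]
  exact Finset.sum_congr rfl fun a _ => (symm_pow h.symm 2).apply c a

/-- the main linear array for one index -/
theorem sumA_linV_col (hB : ZBase F Z) (hb : Bds F Z t σ v ν b) (hA : AdmOK F Z A G m L) (c : ι) :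
    (Z ^ 2) c c * ∑ p ∈ A, ((Z ^ 2) p.1 c * Z p.2 c + Z p.1 c * (Z ^ 2) p.2 c) ≤
      2 * (Z ^ 2) c c + 2 * (L * b * (Z ^ 2) c c ^ 2) := by
  by_cases hc : c ∈ F
  · have hw := sq_diag_nonneg hB.symm c
    rw [sumA_eq_full_sub hA.sub, Finset.sum_add_distrib,
      sum_pairs_mul F (fun a => (Z ^ 2) a c) (fun a => Z a c),
      sum_pairs_mul F (fun a => Z a c) (fun a => (Z ^ 2) a c), hB.colsum_sq c hc,
      hB.colsumP c hc]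
    have q1 := hA.quad (fun a => (Z ^ 2) a c) (fun a => Z a c) (b * √((Z ^ 2) c c))
      (√((Z ^ 2) c c)) (mul_nonneg hb.b0 (Real.sqrt_nonneg _)) (Real.sqrt_nonneg _)
      (colP_sq hB.symm hb.b0 hb.op c) (col_sq hB.symm c).le
    have q2 := hA.quad (fun a => Z a c) (fun a => (Z ^ 2) a c) (√((Z ^ 2) c c))
      (b * √((Z ^ 2) c c)) (Real.sqrt_nonneg _) (mul_nonneg hb.b0 (Real.sqrt_nonneg _))
      (col_sq hB.symm c).le (colP_sq hB.symm hb.b0 hb.op c)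
    have r1 : L * (b * √((Z ^ 2) c c) * √((Z ^ 2) c c)) = L * b * (Z ^ 2) c c := by
      rw [mul_assoc b, Real.mul_self_sqrt hw]; ring
    have r2 : L * (√((Z ^ 2) c c) * (b * √((Z ^ 2) c c))) = L * b * (Z ^ 2) c c := by
      rw [show √((Z ^ 2) c c) * (b * √((Z ^ 2) c c)) = b * (√((Z ^ 2) c c) * √((Z ^ 2) c c)) by
        ring, Real.mul_self_sqrt hw]; ring
    rw [r1] at q1
    rw [r2] at q2
    have h1 : -∑ p ∈ (F ×ˢ F) \ A, ((Z ^ 2) p.1 c * Z p.2 c + Z p.1 c * (Z ^ 2) p.2 c) ≤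
        2 * (L * b * (Z ^ 2) c c) := by
      rw [← Finset.sum_neg_distrib]
      refine (Finset.sum_le_sum (g := fun p => |(Z ^ 2) p.1 c| * |Z p.2 c| +
        |Z p.1 c| * |(Z ^ 2) p.2 c|) fun p _ => ?_).trans ?_
      · rw [← abs_mul, ← abs_mul]
        have g1 := neg_le_abs ((Z ^ 2) p.1 c * Z p.2 c)
        have g2 := neg_le_abs (Z p.1 c * (Z ^ 2) p.2 c)
        linarith
      · rw [Finset.sum_add_distrib]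
        linarith
    have h2 := mul_le_mul_of_nonneg_left h1 hw
    linarith [show (Z ^ 2) c c * (2 * (L * b * (Z ^ 2) c c)) = 2 * (L * b * (Z ^ 2) c c ^ 2) by
      ring]
  · rw [hB.pow_supp 1 c c hc]; simp

/-- the error of `V2_drift` -/
noncomputable def errV (t σ v ν b μ G L : ℝ) : ℝ :=
  8 * t ^ 2 + 16 * (ν * μ ^ 2 * v * (t + σ ^ 2)) + 64 / 5 * (ν * σ * μ * b * v) +
    (2 * G + 8 * (L * b) + 2 * KV t σ v ν b μ) * v ^ 2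

/-- the sum of the main arrays of `V2_pt` -/
theorem V2_main_sum (hB : ZBase F Z) (hb : Bds F Z t σ v ν b) (hA : AdmOK F Z A G m L)
    (hμ0 : 0 ≤ μ) (hμ : ∀ a, (Z ^ 2) a a ≤ μ ^ 2) :
    ∑ p ∈ A, (-((Z ^ 2) p.1 p.1 ^ 2 + (Z ^ 2) p.2 p.2 ^ 2) +
        (8 * (eA Z p.1 p.2 * ((Z ^ 2) p.1 p.1 ^ 2 + (Z ^ 2) p.2 p.2 ^ 2)) +
        32 / 5 * (|(Z ^ 2) p.1 p.2| *
          (|Z p.1 p.1| * (Z ^ 2) p.1 p.1 + |Z p.2 p.2| * (Z ^ 2) p.2 p.2))) +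
        (∑ c, 4 * ((Z ^ 2) c c * ((Z ^ 2) p.1 c * Z p.2 c + Z p.1 c * (Z ^ 2) p.2 c)) +
        ∑ c, (HV Z p.1 p.2 c + HV Z p.2 p.1 c))) ≤
      -2 * ν ^ 2 * (∑ c, (Z ^ 2) c c ^ 2) + errV t σ v ν b μ G L := by
  have hw0 := fun a => sq_diag_nonneg hB.symm a
  have t0 := hb.t0
  have σ0 := hb.σ0
  have v0 := hb.v0
  have ν0 := hb.ν0
  have b0 := hb.b0
  have h45 : ∑ p ∈ A,
      (∑ c, 4 * ((Z ^ 2) c c * ((Z ^ 2) p.1 c * Z p.2 c + Z p.1 c * (Z ^ 2) p.2 c)) +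
        ∑ c, (HV Z p.1 p.2 c + HV Z p.2 p.1 c)) =
      ∑ p ∈ A, ∑ c, 4 * ((Z ^ 2) c c * ((Z ^ 2) p.1 c * Z p.2 c + Z p.1 c * (Z ^ 2) p.2 c)) +
        ∑ p ∈ A, ∑ c, (HV Z p.1 p.2 c + HV Z p.2 p.1 c) := Finset.sum_add_distrib
  rw [Finset.sum_add_distrib, Finset.sum_add_distrib, h45]
  have hVV : ∑ a ∈ F, (Z ^ 2) a a ^ 2 = ∑ a, (Z ^ 2) a a ^ 2 :=
    Finset.sum_subset (Finset.subset_univ F) fun x _ hx => by rw [hB.pow_supp 1 x x hx]; norm_num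
  have h2 : ∑ p ∈ A, -((Z ^ 2) p.1 p.1 ^ 2 + (Z ^ 2) p.2 p.2 ^ 2) ≤
      -2 * ν ^ 2 * (∑ c, (Z ^ 2) c c ^ 2) + 2 * (G * v ^ 2) := by
    rw [Finset.sum_neg_distrib,
      sumA_eq_full_sub hA.sub (fun p => (Z ^ 2) p.1 p.1 ^ 2 + (Z ^ 2) p.2 p.2 ^ 2),
      Finset.sum_add_distrib, Finset.sum_add_distrib, Finset.sum_product, Finset.sum_product]
    simp only [Finset.sum_const, nsmul_eq_mul, ← Finset.mul_sum]
    rw [hVV, hb.N]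
    have e4 := sumE_fst_le (Finset.sdiff_subset) hA.rows (f := fun a => (Z ^ 2) a a ^ 2)
      fun a => sq_nonneg _
    have e5 := sumE_snd_le (Finset.sdiff_subset) hA.cols (f := fun a => (Z ^ 2) a a ^ 2)
      fun a => sq_nonneg _
    have e6 := mul_le_mul_of_nonneg_left hb.VF hA.G0
    linarith
  -- removed indices
  have hZa := arr_mat F Z (hb.frob1 hB.symm)
  have hw4 : ∑ a ∈ F, ((Z ^ 2) a a ^ 2) ^ 2 ≤ (μ ^ 2 * v) ^ 2 := by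
    calc ∑ a ∈ F, ((Z ^ 2) a a ^ 2) ^ 2 ≤ ∑ a ∈ F, (μ ^ 2) ^ 2 * (Z ^ 2) a a ^ 2 :=
          Finset.sum_le_sum fun a _ => by
            rw [sq ((Z ^ 2) a a ^ 2)]
            exact mul_le_mul_of_nonneg_right (pow_le_pow_left₀ (hw0 a) (hμ a) 2) (sq_nonneg _)
      _ ≤ (μ ^ 2 * v) ^ 2 := by
          rw [← Finset.mul_sum, mul_pow (μ ^ 2) v]
          exact mul_le_mul_of_nonneg_left hb.VF (sq_nonneg _)
  have hzw := sumF_mul_le F (fun a => Z a a) (fun a => (Z ^ 2) a a ^ 2) σ0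
    (by positivity : 0 ≤ μ ^ 2 * v) hb.SF hw4
  have r1 : ∑ p ∈ A, |Z p.1 p.2| * |(Z ^ 2) p.1 p.1 ^ 2| ≤ t * ((μ ^ 2 * v) * ν) :=
    sumA_arr_le hA.sub (fun p => Z p.1 p.2) (fun p => (Z ^ 2) p.1 p.1 ^ 2) t0 (by positivity) hZa
      (arr_fst F (fun a => (Z ^ 2) a a ^ 2) hw4 hb.NF)
  have r1' : ∑ p ∈ A, |Z p.1 p.2| * |(Z ^ 2) p.2 p.2 ^ 2| ≤ t * ((μ ^ 2 * v) * ν) :=
    sumA_arr_le hA.sub (fun p => Z p.1 p.2) (fun p => (Z ^ 2) p.2 p.2 ^ 2) t0 (by positivity) hZa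
      (arr_snd F (fun a => (Z ^ 2) a a ^ 2) hw4 hb.NF)
  have r2 : ∑ p ∈ A, (|Z p.1 p.1| * |(Z ^ 2) p.1 p.1 ^ 2|) * |Z p.2 p.2| ≤
      (σ * (μ ^ 2 * v)) * (σ * ν) :=
    sumA_mul_le hA.sub (f := fun a => |Z a a| * |(Z ^ 2) a a ^ 2|) (g := fun a => |Z a a|)
      (fun a => by positivity) (fun a => abs_nonneg _) hzw hb.absS
  have r2' : ∑ p ∈ A, |Z p.1 p.1| * (|Z p.2 p.2| * |(Z ^ 2) p.2 p.2 ^ 2|) ≤
      (σ * ν) * (σ * (μ ^ 2 * v)) :=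
    sumA_mul_le hA.sub (f := fun a => |Z a a|) (g := fun a => |Z a a| * |(Z ^ 2) a a ^ 2|)
      (fun a => abs_nonneg _) (fun a => by positivity) hb.absS hzw
  -- `|P_ab| |Z_aa| w_a`
  have hPw : ∑ p ∈ F ×ˢ F, ((Z ^ 2) p.1 p.2 * √((Z ^ 2) p.1 p.1)) ^ 2 ≤ (b * v) ^ 2 := by
    have e1 : ∀ a b' : ι, ((Z ^ 2) a b' * √((Z ^ 2) a a)) ^ 2 =
        (Z ^ 2) a a * (Z ^ 2) b' a ^ 2 := fun a b' => by
      rw [mul_pow, Real.sq_sqrt (hw0 a), (symm_pow hB.symm 2).apply b' a]; ring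
    rw [Finset.sum_product]
    simp only [e1, ← Finset.mul_sum]
    calc ∑ a ∈ F, (Z ^ 2) a a * ∑ i ∈ F, (Z ^ 2) i a ^ 2
        ≤ ∑ a ∈ F, (Z ^ 2) a a * (b * √((Z ^ 2) a a)) ^ 2 := Finset.sum_le_sum fun a _ =>
          mul_le_mul_of_nonneg_left (colPF_sq hB.symm b0 hb.op F a) (hw0 a)
      _ = b ^ 2 * ∑ a ∈ F, (Z ^ 2) a a ^ 2 := by
          rw [Finset.mul_sum]
          refine Finset.sum_congr rfl fun a _ => ?_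
          rw [mul_pow, Real.sq_sqrt (hw0 a)]; ring
      _ ≤ (b * v) ^ 2 := by
          rw [mul_pow]; exact mul_le_mul_of_nonneg_left hb.VF (sq_nonneg _)
  have hPw' : ∑ p ∈ F ×ˢ F, ((Z ^ 2) p.1 p.2 * √((Z ^ 2) p.2 p.2)) ^ 2 ≤ (b * v) ^ 2 := by
    refine le_trans (le_of_eq ?_) hPw
    rw [Finset.sum_product, Finset.sum_product_right]
    refine Finset.sum_congr rfl fun a _ => Finset.sum_congr rfl fun c _ => ?_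
    simp only
    rw [(symm_pow hB.symm 2).apply a c]
  have hqw : ∑ a ∈ F, (Z a a * √((Z ^ 2) a a)) ^ 2 ≤ (σ * μ) ^ 2 := by
    calc ∑ a ∈ F, (Z a a * √((Z ^ 2) a a)) ^ 2 ≤ ∑ a ∈ F, Z a a ^ 2 * μ ^ 2 :=
          Finset.sum_le_sum fun a _ => by
            rw [mul_pow, Real.sq_sqrt (hw0 a)]
            exact mul_le_mul_of_nonneg_left (hμ a) (sq_nonneg _)
      _ ≤ (σ * μ) ^ 2 := by
          rw [← Finset.sum_mul, mul_pow]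
          exact mul_le_mul_of_nonneg_right hb.SF (sq_nonneg _)
  have r3 : ∑ p ∈ A, |(Z ^ 2) p.1 p.2 * √((Z ^ 2) p.1 p.1)| * |Z p.1 p.1 * √((Z ^ 2) p.1 p.1)| ≤
      (b * v) * ((σ * μ) * ν) :=
    sumA_arr_le hA.sub (fun p => (Z ^ 2) p.1 p.2 * √((Z ^ 2) p.1 p.1))
      (fun p => Z p.1 p.1 * √((Z ^ 2) p.1 p.1)) (by positivity) (by positivity) hPw
      (arr_fst F (fun a => Z a a * √((Z ^ 2) a a)) hqw hb.NF)
  have r3' : ∑ p ∈ A, |(Z ^ 2) p.1 p.2 * √((Z ^ 2) p.2 p.2)| * |Z p.2 p.2 * √((Z ^ 2) p.2 p.2)| ≤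
      (b * v) * ((σ * μ) * ν) :=
    sumA_arr_le hA.sub (fun p => (Z ^ 2) p.1 p.2 * √((Z ^ 2) p.2 p.2))
      (fun p => Z p.2 p.2 * √((Z ^ 2) p.2 p.2)) (by positivity) (by positivity) hPw'
      (arr_snd F (fun a => Z a a * √((Z ^ 2) a a)) hqw hb.NF)
  have h3 : ∑ p ∈ A, (8 * (eA Z p.1 p.2 * ((Z ^ 2) p.1 p.1 ^ 2 + (Z ^ 2) p.2 p.2 ^ 2)) +
      32 / 5 * (|(Z ^ 2) p.1 p.2| *
        (|Z p.1 p.1| * (Z ^ 2) p.1 p.1 + |Z p.2 p.2| * (Z ^ 2) p.2 p.2))) ≤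
      16 * (ν * μ ^ 2 * v * (t + σ ^ 2)) + 64 / 5 * (ν * σ * μ * b * v) := by
    have key : ∀ p : ι × ι,
        8 * (eA Z p.1 p.2 * ((Z ^ 2) p.1 p.1 ^ 2 + (Z ^ 2) p.2 p.2 ^ 2)) +
        32 / 5 * (|(Z ^ 2) p.1 p.2| *
          (|Z p.1 p.1| * (Z ^ 2) p.1 p.1 + |Z p.2 p.2| * (Z ^ 2) p.2 p.2)) =
        8 * (|Z p.1 p.2| * |(Z ^ 2) p.1 p.1 ^ 2|) + 8 * (|Z p.1 p.2| * |(Z ^ 2) p.2 p.2 ^ 2|) +
        8 * ((|Z p.1 p.1| * |(Z ^ 2) p.1 p.1 ^ 2|) * |Z p.2 p.2|) +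
        8 * (|Z p.1 p.1| * (|Z p.2 p.2| * |(Z ^ 2) p.2 p.2 ^ 2|)) +
        32 / 5 * (|(Z ^ 2) p.1 p.2 * √((Z ^ 2) p.1 p.1)| * |Z p.1 p.1 * √((Z ^ 2) p.1 p.1)|) +
        32 / 5 * (|(Z ^ 2) p.1 p.2 * √((Z ^ 2) p.2 p.2)| * |Z p.2 p.2 * √((Z ^ 2) p.2 p.2)|) := by
      intro p
      have g1 := Real.mul_self_sqrt (hw0 p.1)
      have g2 := Real.mul_self_sqrt (hw0 p.2)
      have g3 : |(Z ^ 2) p.1 p.2 * √((Z ^ 2) p.1 p.1)| * |Z p.1 p.1 * √((Z ^ 2) p.1 p.1)| =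
          |(Z ^ 2) p.1 p.2| * (|Z p.1 p.1| * (Z ^ 2) p.1 p.1) := by
        rw [abs_mul, abs_mul, abs_of_nonneg (Real.sqrt_nonneg _)]
        calc _ = |(Z ^ 2) p.1 p.2| * (|Z p.1 p.1| * (√((Z ^ 2) p.1 p.1) * √((Z ^ 2) p.1 p.1))) := by
              ring
          _ = _ := by rw [g1]
      have g4 : |(Z ^ 2) p.1 p.2 * √((Z ^ 2) p.2 p.2)| * |Z p.2 p.2 * √((Z ^ 2) p.2 p.2)| =
          |(Z ^ 2) p.1 p.2| * (|Z p.2 p.2| * (Z ^ 2) p.2 p.2) := by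
        rw [abs_mul, abs_mul, abs_of_nonneg (Real.sqrt_nonneg _)]
        calc _ = |(Z ^ 2) p.1 p.2| * (|Z p.2 p.2| * (√((Z ^ 2) p.2 p.2) * √((Z ^ 2) p.2 p.2))) := by
              ring
          _ = _ := by rw [g2]
      rw [g3, g4]
      unfold eA
      rw [abs_mul (Z p.1 p.1), abs_of_nonneg (sq_nonneg ((Z ^ 2) p.1 p.1)),
        abs_of_nonneg (sq_nonneg ((Z ^ 2) p.2 p.2))]
      ring
    simp only [key, Finset.sum_add_distrib, ← Finset.mul_sum]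
    linarith
  -- surviving indices
  have h4 : ∑ p ∈ A, ∑ c, 4 * ((Z ^ 2) c c * ((Z ^ 2) p.1 c * Z p.2 c + Z p.1 c * (Z ^ 2) p.2 c)) ≤
      8 * t ^ 2 + 8 * (L * b) * v ^ 2 := by
    rw [Finset.sum_comm]
    simp only [← Finset.mul_sum]
    have := Finset.sum_le_sum fun (c : ι) (_ : c ∈ Finset.univ) => sumA_linV_col hB hb hA c
    rw [Finset.sum_add_distrib, ← Finset.mul_sum, ← Finset.mul_sum, ← Finset.mul_sum] at this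
    have g1 : ∑ c, (Z ^ 2) c c ≤ t ^ 2 := hb.T
    have g2 := mul_le_mul_of_nonneg_left hb.V (mul_nonneg hA.L0 b0)
    linarith
  have h5 : ∑ p ∈ A, ∑ c, (HV Z p.1 p.2 c + HV Z p.2 p.1 c) ≤ 2 * KV t σ v ν b μ * v ^ 2 := by
    rw [Finset.sum_comm]
    refine (Finset.sum_le_sum fun (c : ι) (_ : c ∈ Finset.univ) =>
      sumA_HV_col hB hb hA hμ c).trans ?_
    rw [← Finset.mul_sum, ← Finset.mul_sum]
    have := mul_le_mul_of_nonneg_left hb.V (KV_nonneg (v := v) (μ := μ) t0 σ0 ν0 b0)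
    linarith
  unfold errV
  linarith

/-- the drift of `Σ ((Z²)_cc)²` -/
theorem V2_drift (hB : ZBase F Z) (hb : Bds F Z t σ v ν b) (hA : AdmOK F Z A G m L)
    (hμ0 : 0 ≤ μ) (hμ : ∀ a, (Z ^ 2) a a ≤ μ ^ 2) :
    ∑ p ∈ A, (∑ c, (upd Z p.1 p.2 ^ 2) c c ^ 2 - ∑ c, (Z ^ 2) c c ^ 2) ≤
      -2 * ν ^ 2 * (∑ c, (Z ^ 2) c c ^ 2) + errV t σ v ν b μ G L :=
  (Finset.sum_le_sum fun p hp => V2_pt (hA.ok p hp).1 hB.symm (hA.ok p hp).2).trans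
    (V2_main_sum hB hb hA hμ0 hμ)

end Vale.Agent.P049.TS
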